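import Vale.Agent.P006.CMX.Model
import Mathlib.Analysis.Calculus.BumpFunction.Basic
import Mathlib.Analysis.Calculus.BumpFunction.InnerProduct

/-!
P006, block CM3: existence of the weights.
-/

namespace Vale.Agent.P006.CMX

open scoped BigOperators ContDiff
open Vale.Agent.P006 MeasureTheory Filter Topology Set
open Vale.Agent.P006.KER (Nice)
open Vale.Agent.P006.DISP (Bump)

/-- existence of the fixed shape `V0` -/
theorem exists_bump : ∃ V0 : ℝ → ℝ, Bump V0 := by
  let f : ContDiffBump (1 / 2 : ℝ) := ⟨1 / 2, 1, by norm_num, by norm_num⟩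
  refine ⟨f, f.contDiff, fun x => f.nonneg, fun x => f.le_one, fun x h0 h1 => ?_, fun x hx => ?_⟩
  · apply f.one_of_mem_closedBall
    rw [Metric.mem_closedBall, Real.dist_eq, abs_le]
    constructor
    · show -(1 / 2 : ℝ) ≤ _; linarith
    · show _ ≤ (1 / 2 : ℝ); linarith
  · have : x ∈ Function.support f := hx
    rw [f.support_eq, Metric.mem_ball, Real.dist_eq, abs_lt] at this
    have h1 : f.rOut = 1 := rfl
    rw [h1] at this
    constructor <;> linarith [this.1, this.2]

/-- existence of smooth coefficients with nonzero Mellin transform -/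
theorem exists_cut : ∃ U : ℝ → ℂ, Cut U (5 / 4) (7 / 4) ∧ mellin U (5 / 6) ≠ 0 := by
  let f : ContDiffBump (3 / 2 : ℝ) := ⟨1 / 8, 1 / 4, by norm_num, by norm_num⟩
  have hr : f.rOut = 1 / 4 := rfl
  have hsupp : ∀ x, x ∉ Icc (5 / 4 : ℝ) (7 / 4) → f x = 0 := by
    intro x hx
    by_contra h
    have : x ∈ Function.support f := h
    rw [f.support_eq, Metric.mem_ball, Real.dist_eq, abs_lt, hr] at this
    exact hx ⟨by linarith [this.1], by linarith [this.2]⟩
  have hcont : Continuous (fun x : ℝ => f x) := f.continuous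
  refine ⟨fun x => ((f x : ℝ) : ℂ), ⟨⟨Complex.ofRealCLM.contDiff.comp f.contDiff, by norm_num,
    by norm_num, fun x hx => by rw [hsupp x hx, Complex.ofReal_zero]⟩, by norm_num, by norm_num⟩,
    ?_⟩
  have h1 : mellin (fun x => ((f x : ℝ) : ℂ)) (5 / 6) =
      ((∫ x in Ioi (0 : ℝ), x ^ (-(1 / 6) : ℝ) * f x : ℝ) : ℂ) := by
    rw [mellin, ← integral_complex_ofReal]
    refine setIntegral_congr_fun measurableSet_Ioi fun x hx => ?_
    have hx0 : (0 : ℝ) < x := hx
    simp only [smul_eq_mul, Complex.ofReal_mul, Complex.ofReal_cpow hx0.le]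
    congr 2
    push_cast
    norm_num
  rw [h1, Complex.ofReal_ne_zero]
  apply ne_of_gt
  have hint : IntegrableOn (fun x : ℝ => x ^ (-(1 / 6) : ℝ) * f x) (Ioi 0) := by
    have h2 : (fun x : ℝ => x ^ (-(1 / 6) : ℝ) * f x) =
        (Icc (5 / 4 : ℝ) (7 / 4)).indicator (fun x : ℝ => x ^ (-(1 / 6) : ℝ) * f x) := by
      funext x
      by_cases hx : x ∈ Icc (5 / 4 : ℝ) (7 / 4)
      · rw [indicator_of_mem hx]
      · rw [indicator_of_notMem hx, hsupp x hx, mul_zero]
    rw [h2]
    apply Integrable.integrableOn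
    rw [integrable_indicator_iff measurableSet_Icc]
    apply ContinuousOn.integrableOn_compact isCompact_Icc
    apply ContinuousOn.mul _ hcont.continuousOn
    intro x hx
    apply ContinuousAt.continuousWithinAt
    apply Real.continuousAt_rpow_const
    left
    have := hx.1
    linarith
  rw [setIntegral_pos_iff_support_of_nonneg_ae]
  · have hsub : Ioo (11 / 8 : ℝ) (13 / 8) ⊆
        Function.support (fun x : ℝ => x ^ (-(1 / 6) : ℝ) * f x) ∩ Ioi 0 := by
      intro x hx
      have hx0 : (0 : ℝ) < x := by linarith [hx.1]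
      refine ⟨?_, hx0⟩
      rw [Function.mem_support]
      have h3 : f x = 1 := by
        apply f.one_of_mem_closedBall
        rw [Metric.mem_closedBall, Real.dist_eq, abs_le]
        have : f.rIn = 1 / 8 := rfl
        rw [this]
        constructor <;> linarith [hx.1, hx.2]
      rw [h3, mul_one]
      positivity
    refine lt_of_lt_of_le ?_ (measure_mono hsub)
    rw [Real.volume_Ioo]
    simp
    norm_num
  · refine (ae_restrict_iff' measurableSet_Ioi).2 (Eventually.of_forall fun x hx => ?_)
    have hx0 : (0 : ℝ) < x := hx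
    exact mul_nonneg (by positivity) f.nonneg
  · exact hint

end Vale.Agent.P006.CMX
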