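import Vale.Agent.P006.CMX.LowerV3
import Vale.Agent.P006.CMX.Exist
import Vale.Agent.P006.CM.V1Hyp
import Vale.Agent.P006.Main.Aut

/-!
P006, block CM3: `‖θ 1‖ = cStar * kap`.
-/

namespace Vale.Agent.P006.CMX

open scoped BigOperators Classical
open Vale.Agent.P006 Finset MeasureTheory Filter Topology
open Vale.Agent.P006.KER (Nice)
open Vale.Agent.P006.TI (kap CU M1)
open Vale.Agent.P006.DISP
open Vale.Agent.P006.V2 (hfac)

/-- abstract final step -/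
theorem eq_one_of {v x D : ℝ → ℝ} {l c : ℝ} (hc : 0 < c) (hv : ∀ᶠ A in atTop, c ≤ v A)
    (h1 : Tendsto (fun A => x A - v A) atTop (𝓝 0)) (h2 : Tendsto D atTop (𝓝 0))
    (h3 : ∀ κ : ℝ, 0 < κ → ∀ᶠ A in atTop, x A ≤ (1 + κ) * (l * v A) + (1 + 1 / κ) * D A)
    (h4 : ∀ κ : ℝ, 0 < κ → ∀ᶠ A in atTop, l * v A ≤ (1 + κ) * x A + (1 + 1 / κ) * D A) :
    l = 1 := by
  apply le_antisymm
  · by_contra h
    rw [not_le] at h
    set κ : ℝ := (l - 1) / 2 with hκ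
    have hκ0 : 0 < κ := by rw [hκ]; linarith
    have h5 : Tendsto (fun A => (1 + κ) * (x A - v A) + (1 + 1 / κ) * D A) atTop (𝓝 0) := by
      have := (h1.const_mul (1 + κ)).add (h2.const_mul (1 + 1 / κ))
      simpa using this
    have h6 : ∀ᶠ A in atTop, (1 + κ) * (x A - v A) + (1 + 1 / κ) * D A < c * κ :=
      h5.eventually (gt_mem_nhds (by positivity))
    obtain ⟨A, e1, e2, e3⟩ := (hv.and ((h4 κ hκ0).and h6)).exists
    have h7 : κ * v A ≤ (1 + κ) * (x A - v A) + (1 + 1 / κ) * D A := by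
      have : l = 1 + 2 * κ := by rw [hκ]; ring
      rw [this] at e2
      linarith
    nlinarith
  · by_contra h
    rw [not_le] at h
    set κ : ℝ := (1 - l) / 2 with hκ
    have hκ0 : 0 < κ := by rw [hκ]; linarith
    have h5 : Tendsto (fun A => -(x A - v A) + (1 + 1 / κ) * D A) atTop (𝓝 0) := by
      have := h1.neg.add (h2.const_mul (1 + 1 / κ))
      simpa using this
    have h6 : ∀ᶠ A in atTop, -(x A - v A) + (1 + 1 / κ) * D A < c * κ :=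
      h5.eventually (gt_mem_nhds (by positivity))
    obtain ⟨A, e1, e2, e3⟩ := (hv.and ((h3 κ hκ0).and h6)).exists
    have h8 : (1 + κ) * l ≤ 1 - κ := by
      have : l = 1 - 2 * κ := by rw [hκ]; ring
      rw [this]; nlinarith
    have h9 : 0 ≤ v A := hc.le.trans e1
    have h7 : κ * v A ≤ -(x A - v A) + (1 + 1 / κ) * D A := by
      have h10 : (1 + κ) * (l * v A) ≤ (1 - κ) * v A := by
        rw [← mul_assoc]; exact mul_le_mul_of_nonneg_right h8 h9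
      linarith
    nlinarith

theorem norm_add_sq_le (p q : ℂ) {κ : ℝ} (hκ : 0 < κ) :
    ‖p + q‖ ^ 2 ≤ (1 + κ) * ‖p‖ ^ 2 + (1 + 1 / κ) * ‖q‖ ^ 2 := by
  have h1 : ‖p + q‖ ^ 2 ≤ (‖p‖ + ‖q‖) ^ 2 := pow_le_pow_left₀ (norm_nonneg _) (norm_add_le _ _) 2
  have h2 : 0 ≤ (κ * ‖p‖ - ‖q‖) ^ 2 / κ := by positivity
  have h3 : (κ * ‖p‖ - ‖q‖) ^ 2 / κ = κ * ‖p‖ ^ 2 - 2 * (‖p‖ * ‖q‖) + 1 / κ * ‖q‖ ^ 2 := by
    field_simp; ring
  nlinarith

/-- weighted version -/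
theorem weighted_le {ι : Type*} (s : Finset ι) (w : ι → ℝ) (hw : ∀ i, 0 ≤ w i) (P Q R : ι → ℂ)
    (h : ∀ i, P i = Q i + R i) {κ : ℝ} (hκ : 0 < κ) :
    ∑ i ∈ s, w i * ‖P i‖ ^ 2 ≤ (1 + κ) * ∑ i ∈ s, w i * ‖Q i‖ ^ 2 +
      (1 + 1 / κ) * ∑ i ∈ s, w i * ‖R i‖ ^ 2 := by
  rw [mul_sum, mul_sum, ← sum_add_distrib]
  refine sum_le_sum fun i _ => ?_
  rw [h i]
  calc w i * ‖Q i + R i‖ ^ 2 ≤ w i * ((1 + κ) * ‖Q i‖ ^ 2 + (1 + 1 / κ) * ‖R i‖ ^ 2) :=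
        mul_le_mul_of_nonneg_left (norm_add_sq_le _ _ hκ) (hw i)
    _ = _ := by ring

/-- **Modulus.** -/
theorem norm_theta_one (hV1 : V1Hyp) (hV3 : V3Hyp) (hNC : NCsm) {θ : O → ℂ}
    (h : V2.FCHyp θ) (hθ : V2.Rho3 θ) : ‖θ 1‖ = cStar * kap := by
  obtain ⟨V0, hV0⟩ := exists_bump
  obtain ⟨U, H, hU⟩ := exists_cut
  have hk := TI.kap_pos
  have hc := cStar_pos
  have hm : 0 < ‖mellin U (5 / 6)‖ := norm_pos_iff.2 hU
  set lam : ℂ := θ 1 / (kap * cStar) with hlam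
  set V : ℝ → ℝ := Vx V0 1 1 with hV
  -- normalised quantities
  set x : ℝ → ℝ := fun A => V1s V (A ^ (3 / 2 : ℝ)) 1 (al U A) A / A ^ (8 / 3 : ℝ) with hx
  set v : ℝ → ℝ := fun A => V3s V (A ^ (3 / 2 : ℝ)) 1 (al U A) A / A ^ (8 / 3 : ℝ) with hv
  set D : ℝ → ℝ := fun A => (∑ b ∈ PB (4 * A ^ (3 / 2 : ℝ)), wt V (A ^ (3 / 2 : ℝ)) 1 b *
      ‖Xb (al U A) A b - lam * Yb (al U A) A b‖ ^ 2) / A ^ (8 / 3 : ℝ) with hD
  have hVn : ∀ u, 0 ≤ V u := Vx_nonneg hV0 1 1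
  have hV1' : ∀ u, V u ≤ 1 := fun u => hV0.le_one _
  have hw : ∀ B b, 0 ≤ wt V B 1 b := fun B b => wt_nonneg hVn B 1 b
  have hB1 : ∀ A : ℝ, 1 ≤ A → 1 ≤ A ^ (3 / 2 : ℝ) := fun A hA => Real.one_le_rpow hA (by norm_num)
  -- `D → 0`
  have tD : Tendsto D atTop (𝓝 0) := by
    obtain ⟨C, hC, hL⟩ := L2diff h hθ H hk.ne' (η := 1 / 30) (by norm_num) (by norm_num)
    have hlim : Tendsto (fun A : ℝ => C * A ^ (-(1 / 12) : ℝ)) atTop (𝓝 0) := by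
      have := (tendsto_rpow_neg_atTop (show (0 : ℝ) < 1 / 12 by norm_num)).const_mul C
      simpa using this
    refine squeeze_zero' ?_ ?_ hlim
    · filter_upwards [eventually_ge_atTop 1] with A hA
      have hA0 : 0 < A := by linarith
      exact div_nonneg (sum_nonneg fun b _ => mul_nonneg (hw _ _) (by positivity)) (by positivity)
    · filter_upwards [eventually_ge_atTop 1] with A hA
      have hA0 : 0 < A := by linarith
      rw [hD]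
      simp only
      rw [div_le_iff₀ (by positivity)]
      refine (hL A (A ^ (3 / 2 : ℝ)) hA (hB1 A hA) V hVn hV1').trans (le_of_eq ?_)
      rw [mul_assoc, ← Real.rpow_add hA0]
      congr 1
      nth_rewrite 1 [← Real.rpow_one A]
      rw [← Real.rpow_add hA0, ← Real.rpow_mul hA0.le]
      norm_num
  -- `x - v → 0`
  have txv : Tendsto (fun A => x A - v A) atTop (𝓝 0) := by
    obtain ⟨C, hC, hE⟩ := V1_sub_V3 hV1 hV3 hV0 H (ε := 1 / 12) (by norm_num)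
    have hlim : Tendsto (fun A : ℝ => C * (A ^ (-(1 / 12) : ℝ) + A ^ (-(5 / 12) : ℝ) +
        NCf (al U A) A (A ^ (3 / 2 : ℝ)) / A ^ (8 / 3 : ℝ))) atTop (𝓝 0) := by
      have t1 := tendsto_rpow_neg_atTop (show (0 : ℝ) < 1 / 12 by norm_num)
      have t2 := tendsto_rpow_neg_atTop (show (0 : ℝ) < 5 / 12 by norm_num)
      have := ((t1.add t2).add (hNC U _ _ H)).const_mul C
      simpa using this
    refine squeeze_zero_norm' ?_ hlim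
    filter_upwards [eventually_ge_atTop 1] with A hA
    have hA0 : 0 < A := by linarith
    have h8 : (0 : ℝ) < A ^ (8 / 3 : ℝ) := by positivity
    have e1 := hE A (A ^ (3 / 2 : ℝ)) hA (hB1 A hA)
    have e2 : x A - v A = (V1s V (A ^ (3 / 2 : ℝ)) 1 (al U A) A -
        V3s V (A ^ (3 / 2 : ℝ)) 1 (al U A) A) / A ^ (8 / 3 : ℝ) := by
      rw [hx, hv]; simp only; rw [sub_div]
    rw [e2, norm_div, Real.norm_eq_abs, Real.norm_of_nonneg h8.le, div_le_iff₀ h8]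
    refine e1.trans (le_of_eq ?_)
    have e3 : A ^ (1 + 1 / 12 : ℝ) * A ^ (3 / 2 : ℝ) = A ^ (-(1 / 12) : ℝ) * A ^ (8 / 3 : ℝ) := by
      rw [← Real.rpow_add hA0, ← Real.rpow_add hA0]; norm_num
    have e4 : A ^ (5 / 3 + 1 / 12 : ℝ) * (A ^ (3 / 2 : ℝ)) ^ (1 / 3 : ℝ) =
        A ^ (-(5 / 12) : ℝ) * A ^ (8 / 3 : ℝ) := by
      rw [← Real.rpow_mul hA0.le, ← Real.rpow_add hA0, ← Real.rpow_add hA0]; norm_num
    rw [e3, e4]
    field_simp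
  -- lower bound for `v`
  obtain ⟨c1, hc1, hlow⟩ := sum_hfac_sq_ge
  obtain ⟨K, hK, hV3ge⟩ := V3s_ge H hV0 (η := 1 / 3) (by norm_num) (by norm_num)
  set c2 : ℝ := kap ^ 2 * ‖mellin U (5 / 6)‖ ^ 2 / 2 * c1 with hc2
  have hc20 : 0 < c2 := by positivity
  set c3 : ℝ := cStar ^ 2 * (2 : ℝ) ^ (-(1 / 3) : ℝ) * (c2 / 2) with hc3
  have hc30 : 0 < c3 := by positivity
  have ev : ∀ᶠ A in atTop, c3 ≤ v A := by
    have hB : Tendsto (fun A : ℝ => A ^ (3 / 2 : ℝ)) atTop atTop :=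
      tendsto_rpow_atTop (by norm_num)
    have hsmall : ∀ᶠ A : ℝ in atTop, K ≤ c2 / 2 * A ^ (1 / 6 : ℝ) :=
      ((tendsto_rpow_atTop (by norm_num)).const_mul_atTop (by positivity)).eventually_ge_atTop _
    filter_upwards [hB.eventually hlow, hsmall, eventually_ge_atTop 1] with A e1 e2 hA
    have hA0 : 0 < A := by linarith
    have h8 : (0 : ℝ) < A ^ (8 / 3 : ℝ) := by positivity
    rw [hv]
    simp only
    rw [le_div_iff₀ h8]
    refine le_trans ?_ (hV3ge A (A ^ (3 / 2 : ℝ)) hA (hB1 A hA))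
    have e3 : (2 * A ^ (3 / 2 : ℝ)) ^ (-(1 / 3) : ℝ) =
        (2 : ℝ) ^ (-(1 / 3) : ℝ) * A ^ (-(1 / 2) : ℝ) := by
      rw [Real.mul_rpow (by norm_num) (by positivity), ← Real.rpow_mul hA0.le]; norm_num
    have e4 : A * (A ^ (3 / 2 : ℝ)) ^ (1 + 1 / 3 : ℝ) = A ^ (3 : ℝ) := by
      nth_rewrite 1 [← Real.rpow_one A]
      rw [← Real.rpow_mul hA0.le, ← Real.rpow_add hA0]; norm_num
    have e5 : A ^ (8 / 3 : ℝ) = A ^ (-(1 / 2) : ℝ) * A ^ (19 / 6 : ℝ) := by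
      rw [← Real.rpow_add hA0]; norm_num
    have e6 : A ^ (5 / 3 : ℝ) * A ^ (3 / 2 : ℝ) = A ^ (19 / 6 : ℝ) := by
      rw [← Real.rpow_add hA0]; norm_num
    have e7 : A ^ (19 / 6 : ℝ) = A ^ (3 : ℝ) * A ^ (1 / 6 : ℝ) := by
      rw [← Real.rpow_add hA0]; norm_num
    rw [e3, e4]
    have e8 : c2 / 2 * A ^ (19 / 6 : ℝ) ≤ kap ^ 2 * ‖mellin U (5 / 6)‖ ^ 2 * A ^ (5 / 3 : ℝ) / 2 *
        (∑ b ∈ DY (A ^ (3 / 2 : ℝ)), hfac b ^ 2) - K * A ^ (3 : ℝ) := by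
      have f1 : c2 * A ^ (19 / 6 : ℝ) ≤ kap ^ 2 * ‖mellin U (5 / 6)‖ ^ 2 * A ^ (5 / 3 : ℝ) / 2 *
          (∑ b ∈ DY (A ^ (3 / 2 : ℝ)), hfac b ^ 2) := by
        calc c2 * A ^ (19 / 6 : ℝ) = kap ^ 2 * ‖mellin U (5 / 6)‖ ^ 2 * A ^ (5 / 3 : ℝ) / 2 *
              (c1 * A ^ (3 / 2 : ℝ)) := by rw [hc2, ← e6]; ring
          _ ≤ _ := by gcongr
      have f2 : K * A ^ (3 : ℝ) ≤ c2 / 2 * A ^ (19 / 6 : ℝ) := by
        rw [e7]
        calc K * A ^ (3 : ℝ) ≤ (c2 / 2 * A ^ (1 / 6 : ℝ)) * A ^ (3 : ℝ) := by gcongr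
          _ = _ := by ring
      linarith
    calc c3 * A ^ (8 / 3 : ℝ) = cStar ^ 2 * ((2 : ℝ) ^ (-(1 / 3) : ℝ) * A ^ (-(1 / 2) : ℝ)) *
          (c2 / 2 * A ^ (19 / 6 : ℝ)) := by rw [hc3, e5]; ring
      _ ≤ _ := by gcongr
  -- comparison
  have hsq : ∀ A : ℝ, ∑ b ∈ PB (4 * A ^ (3 / 2 : ℝ)), wt V (A ^ (3 / 2 : ℝ)) 1 b *
      ‖lam * Yb (al U A) A b‖ ^ 2 = ‖lam‖ ^ 2 * V3s V (A ^ (3 / 2 : ℝ)) 1 (al U A) A := by
    intro A
    rw [V3s, mul_sum]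
    refine sum_congr rfl fun b _ => ?_
    rw [norm_mul]; ring
  have h3 : ∀ κ : ℝ, 0 < κ → ∀ᶠ A in atTop,
      x A ≤ (1 + κ) * (‖lam‖ ^ 2 * v A) + (1 + 1 / κ) * D A := by
    intro κ hκ
    filter_upwards [eventually_ge_atTop 1] with A hA
    have hA0 : 0 < A := by linarith
    have h8 : (0 : ℝ) < A ^ (8 / 3 : ℝ) := by positivity
    have e1 := weighted_le (PB (4 * A ^ (3 / 2 : ℝ))) (wt V (A ^ (3 / 2 : ℝ)) 1)
      (hw _) (fun b => Xb (al U A) A b) (fun b => lam * Yb (al U A) A b)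
      (fun b => Xb (al U A) A b - lam * Yb (al U A) A b) (fun b => by ring) hκ
    rw [hsq] at e1
    rw [hx, hv, hD]
    simp only
    rw [div_le_iff₀ h8]
    calc V1s V (A ^ (3 / 2 : ℝ)) 1 (al U A) A ≤ _ := e1
      _ = _ := by field_simp
  have h4 : ∀ κ : ℝ, 0 < κ → ∀ᶠ A in atTop,
      ‖lam‖ ^ 2 * v A ≤ (1 + κ) * x A + (1 + 1 / κ) * D A := by
    intro κ hκ
    filter_upwards [eventually_ge_atTop 1] with A hA
    have hA0 : 0 < A := by linarith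
    have h8 : (0 : ℝ) < A ^ (8 / 3 : ℝ) := by positivity
    have e1 := weighted_le (PB (4 * A ^ (3 / 2 : ℝ))) (wt V (A ^ (3 / 2 : ℝ)) 1)
      (hw _) (fun b => lam * Yb (al U A) A b) (fun b => Xb (al U A) A b)
      (fun b => -(Xb (al U A) A b - lam * Yb (al U A) A b)) (fun b => by ring) hκ
    simp only [norm_neg] at e1
    rw [hsq] at e1
    rw [hx, hv, hD]
    simp only
    rw [← mul_div_assoc, div_le_iff₀ h8]
    calc ‖lam‖ ^ 2 * V3s V (A ^ (3 / 2 : ℝ)) 1 (al U A) A ≤ _ := e1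
      _ = _ := by rw [V1s]; field_simp
  have h5 : ‖lam‖ ^ 2 = 1 := eq_one_of hc30 ev txv tD h3 h4
  have h6 : ‖lam‖ = 1 := by
    have := norm_nonneg lam
    nlinarith
  rw [hlam, norm_div, norm_mul, Complex.norm_real, Complex.norm_real, Real.norm_of_nonneg hk.le,
    Real.norm_of_nonneg hc.le, div_eq_one_iff_eq (by positivity)] at h6
  rw [h6, mul_comm]

/-- leaf [2] of the final assembly -/
theorem autNorm (hNC : NCsm) : AutNorm := fun _ h hθ =>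
  norm_theta_one CM.v1Hyp CM.v3Hyp hNC h hθ

end Vale.Agent.P006.CMX
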