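import Vale.Agent.P006.V2.GenOut
import Vale.Agent.P006.CM.ThSum
import Vale.Agent.P006.DISP.Main

/-!
P006, block CM3 (modulus of the constant): the inner sums `X_b` and `Y_b` of the dispersion for
smooth coefficients, and their comparison.
-/

namespace Vale.Agent.P006.CMX

open scoped BigOperators Classical
open Vale.Agent.P006 Finset MeasureTheory
open Vale.Agent.P006.KER (Nice)
open Vale.Agent.P006.TI (SM SC mem_SM mem_SC kap CU M1 vr)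
open Vale.Agent.P006.DISP (Th Xb Yb wt Bump Vx)
open Vale.Agent.P006.V1 (ch cop)
open Vale.Agent.P006.CM (radO radO_primary radO_sqf pdv_radO isCoprime_radO card_D_radO_le)

/-- the smooth coefficients -/
noncomputable def al (U : ℝ → ℂ) (A : ℝ) (a : O) : ℂ := if InP a then U (N a / A) else 0

theorem al_of {U : ℝ → ℂ} {A : ℝ} {a : O} (h : InP a) : al U A a = U (N a / A) := if_pos h

variable {U : ℝ → ℂ} {a0 b0 : ℝ}

theorem sum_SM {E : Type*} [AddCommMonoid E] {r : O} (hr : Primary r) (hs : Squarefree r) (Z : ℝ)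
    (f : O → E) :
    ∑ c ∈ SM r Z, f c = ∑ a ∈ SC r (Z / N r), f (r * a) := by
  symm
  have hN : (0 : ℝ) < N r := by exact_mod_cast N_pos hr.ne_zero
  refine Finset.sum_bij (fun c _ => r * c) ?_ ?_ ?_ ?_
  · intro c hc
    rw [mem_SC] at hc
    obtain ⟨h1, h2, h3, h4⟩ := hc
    rw [mem_SM]
    refine ⟨hr.mul h1, TI.squarefree_mul_of_coprime h3.symm hs h2, dvd_mul_right r c, ?_⟩
    rw [N_mul]; push_cast
    rw [le_div_iff₀ hN] at h4; linarith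
  · intro x _ y _ h
    exact mul_left_cancel₀ hr.ne_zero h
  · intro c hc
    rw [mem_SM] at hc
    obtain ⟨h1, h2, ⟨c', rfl⟩, h4⟩ := hc
    refine ⟨c', ?_, rfl⟩
    rw [mem_SC]
    refine ⟨hr.of_mul h1, h2.of_mul_right, (TI.isCoprime_of_squarefree_mul h2).symm, ?_⟩
    rw [le_div_iff₀ hN]
    rw [N_mul] at h4; push_cast at h4; linarith
  · intro c _
    rfl

/-- smooth model sums over squarefree primary elements prime to `r` -/
theorem model_coprime {θ : ℝ} (H : Nice U a0 b0) (h1 : 1 / 2 < θ) (h2 : θ ≤ 1)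
    {A Z : ℝ} (hA : 0 < A) (hZ : b0 * A ≤ Z) {r : O} (hr : Primary r) (hs : Squarefree r) :
    ‖∑ a ∈ SC r Z, (((N a : ℝ) ^ (-(1 / 6) : ℝ) : ℝ) : ℂ) * U (N a / A) -
      ((kap * ((N r : ℝ) * vr r) * A ^ (5 / 6 : ℝ) : ℝ) : ℂ) * mellin U (5 / 6)‖ ≤
      M1 θ * (HB.D r).card * CU U (-(1 / 6)) θ * A ^ (θ - 1 / 6) := by
  have hN : (0 : ℝ) < N r := by exact_mod_cast N_pos hr.ne_zero
  have hX : 0 < A * N r := by positivity
  have hm := TI.model_sum (θ := θ) H h1 h2 (-(1 / 6)) 0 hX (Z := Z * N r)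
    (by nlinarith) hr hs
  have e1 : Z * (N r : ℝ) / N r = Z := by field_simp
  rw [sum_SM hr hs, e1] at hm
  have e2 : A * (N r : ℝ) / N r = A := by field_simp
  rw [e2] at hm
  have e3 : ∀ x : ℝ, 0 < x → (x : ℂ) ^ ((((-(1 / 6) : ℝ)) : ℂ) + ((0 : ℝ) : ℂ) * Complex.I) =
      ((x ^ (-(1 / 6) : ℝ) : ℝ) : ℂ) := by
    intro x hx
    rw [Complex.ofReal_zero, zero_mul, add_zero, Complex.ofReal_cpow hx.le]
  have e4 : ((A * (N r : ℝ) : ℝ) : ℂ) ^ ((((-(1 / 6) : ℝ)) : ℂ) + ((0 : ℝ) : ℂ) * Complex.I + 1) =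
      (((A * (N r : ℝ)) ^ (5 / 6 : ℝ) : ℝ) : ℂ) := by
    rw [Complex.ofReal_cpow hX.le]
    congr 1
    push_cast
    ring
  have e5 : ((((-(1 / 6) : ℝ)) : ℂ) + ((0 : ℝ) : ℂ) * Complex.I + 1) = 5 / 6 := by
    push_cast; ring
  rw [e4, e5] at hm
  have e6 : ∑ a ∈ SC r Z, (N (r * a) : ℂ) ^ ((((-(1 / 6) : ℝ)) : ℂ) + ((0 : ℝ) : ℂ) * Complex.I) *
        U (N (r * a) / (A * N r)) =
      (((N r : ℝ) ^ (-(1 / 6) : ℝ) : ℝ) : ℂ) *
        ∑ a ∈ SC r Z, (((N a : ℝ) ^ (-(1 / 6) : ℝ) : ℝ) : ℂ) * U (N a / A) := by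
    rw [mul_sum]
    refine sum_congr rfl fun a ha => ?_
    rw [mem_SC] at ha
    have hNa : (0 : ℝ) < N a := by exact_mod_cast N_pos ha.1.ne_zero
    have e7 := e3 (N (r * a)) (by exact_mod_cast N_pos (mul_ne_zero hr.ne_zero ha.1.ne_zero))
    rw [Complex.ofReal_natCast] at e7
    rw [e7, N_mul, Nat.cast_mul, Real.mul_rpow hN.le hNa.le]
    have e8 : (N r : ℝ) * N a / (A * N r) = N a / A := by field_simp
    rw [e8]
    push_cast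
    ring
  rw [e6] at hm
  -- multiply by `N(r)^(1/6)`
  have e9 : (N r : ℝ) ^ (1 / 6 : ℝ) * (N r : ℝ) ^ (-(1 / 6) : ℝ) = 1 := by
    rw [← Real.rpow_add hN]; norm_num
  have e9' : (((N r : ℝ) ^ (1 / 6 : ℝ) : ℝ) : ℂ) * (((N r : ℝ) ^ (-(1 / 6) : ℝ) : ℝ) : ℂ) = 1 := by
    rw [← Complex.ofReal_mul, e9, Complex.ofReal_one]
  have e10 : (A * (N r : ℝ)) ^ (5 / 6 : ℝ) * (N r : ℝ) ^ (1 / 6 : ℝ) = A ^ (5 / 6 : ℝ) * N r := by
    rw [Real.mul_rpow hA.le hN.le, mul_assoc, ← Real.rpow_add hN]; norm_num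
  have e10' : (((A * (N r : ℝ)) ^ (5 / 6 : ℝ) : ℝ) : ℂ) * (((N r : ℝ) ^ (1 / 6 : ℝ) : ℝ) : ℂ) =
      ((A ^ (5 / 6 : ℝ) : ℝ) : ℂ) * ((N r : ℝ) : ℂ) := by
    rw [← Complex.ofReal_mul, e10, Complex.ofReal_mul]
  set S : ℂ := ∑ a ∈ SC r Z, (((N a : ℝ) ^ (-(1 / 6) : ℝ) : ℝ) : ℂ) * U (N a / A) with hS
  have e11 : S - ((kap * ((N r : ℝ) * vr r) * A ^ (5 / 6 : ℝ) : ℝ) : ℂ) * mellin U (5 / 6) =
      (((N r : ℝ) ^ (1 / 6 : ℝ) : ℝ) : ℂ) * ((((N r : ℝ) ^ (-(1 / 6) : ℝ) : ℝ) : ℂ) * S -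
        ((kap * vr r : ℝ) : ℂ) * (((A * (N r : ℝ)) ^ (5 / 6 : ℝ) : ℝ) : ℂ) * mellin U (5 / 6)) := by
    rw [Complex.ofReal_mul (kap * ((N r : ℝ) * vr r)), Complex.ofReal_mul kap,
      Complex.ofReal_mul (N r : ℝ), Complex.ofReal_mul kap]
    set x := (((N r : ℝ) ^ (1 / 6 : ℝ) : ℝ) : ℂ)
    set y := (((N r : ℝ) ^ (-(1 / 6) : ℝ) : ℝ) : ℂ)
    set z := (((A * (N r : ℝ)) ^ (5 / 6 : ℝ) : ℝ) : ℂ)
    linear_combination (-S) * e9' + ((kap : ℂ) * (vr r : ℂ) * mellin U (5 / 6)) * e10'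
  rw [e11, norm_mul, Complex.norm_real, Real.norm_of_nonneg (by positivity)]
  calc (N r : ℝ) ^ (1 / 6 : ℝ) * ‖_‖ ≤ (N r : ℝ) ^ (1 / 6 : ℝ) *
        (M1 θ * (HB.D r).card * CU U (-(1 / 6)) θ * (1 + |(0 : ℝ)|) *
          ((A * N r) ^ (-(1 / 6) : ℝ) * A ^ θ)) := mul_le_mul_of_nonneg_left hm (by positivity)
    _ = M1 θ * (HB.D r).card * CU U (-(1 / 6)) θ * A ^ (θ - 1 / 6) := by
        rw [Real.mul_rpow hA.le hN.le, abs_zero, add_zero, mul_one,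
          show θ - 1 / 6 = -(1 / 6) + θ by ring, Real.rpow_add hA]
        calc _ = M1 θ * (HB.D r).card * CU U (-(1 / 6)) θ *
              (A ^ (-(1 / 6) : ℝ) * A ^ θ) * ((N r : ℝ) ^ (1 / 6 : ℝ) *
              (N r : ℝ) ^ (-(1 / 6) : ℝ)) := by ring
          _ = _ := by rw [e9]; ring

/-- the support is contained in `(1, 2]` -/
structure Cut (U : ℝ → ℂ) (a0 b0 : ℝ) : Prop where
  nice : Nice U a0 b0
  lt : 1 < a0
  le : b0 ≤ 2

theorem Xb_eq (H : Cut U a0 b0) {A : ℝ} (hA : 0 < A) (b : O) :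
    Xb (al U A) A b = V2.TB U 0 b A := by
  rw [V2.TB_zero, tsum_eq_sum (s := SPB (2 * A)), Xb]
  · refine sum_congr rfl fun a ha => ?_
    have hP : InP a := (DISP.mem_SPB_iff.1 ha).1
    rw [al_of hP]
    by_cases hc : IsCoprime a b
    · rw [if_pos ⟨hP.1, hc⟩, ch]; ring
    · rw [if_neg (fun h => hc h.2), ch, sym_eq_zero.2 (fun h => hc h.symm), map_zero, map_zero]
      ring
  · intro a ha
    split_ifs with h
    · by_cases hs : Squarefree a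
      · have h1 : 2 * A < (N a : ℝ) := by
          by_contra h2
          exact ha (DISP.mem_SPB_iff.2 ⟨⟨h.1, hs⟩, not_lt.1 h2⟩)
        have h3 : U (N a / A) = 0 := by
          apply H.nice.eq_zero_of_ge
          rw [lt_div_iff₀ hA]
          have := H.le
          nlinarith
        rw [h3, mul_zero]
      · rw [V2.gt_one_eq_zero h.1 hs]; ring
    · rfl

theorem Yb_inner (H : Cut U a0 b0) {A : ℝ} {b : O} (hb : Primary b) :
    ∑ a ∈ SPB (2 * A), al U A a * ((((N a : ℝ) ^ (-(1 / 6) : ℝ) : ℝ) : ℂ) * cop a b) =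
      ∑ a ∈ SC (radO b) (2 * A), (((N a : ℝ) ^ (-(1 / 6) : ℝ) : ℝ) : ℂ) * U (N a / A) := by
  have h1 : SC (radO b) (2 * A) = (SPB (2 * A)).filter (fun a => IsCoprime b a) := by
    ext a
    rw [mem_SC, mem_filter, DISP.mem_SPB_iff, InP]
    constructor
    · rintro ⟨h1, h2, h3, h4⟩
      exact ⟨⟨⟨h1, h2⟩, h4⟩, ((isCoprime_radO h1 hb).1 h3).symm⟩
    · rintro ⟨⟨⟨h1, h2⟩, h4⟩, h3⟩
      exact ⟨h1, h2, (isCoprime_radO h1 hb).2 h3.symm, h4⟩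
  rw [h1, sum_filter]
  refine sum_congr rfl fun a ha => ?_
  rw [al_of (DISP.mem_SPB_iff.1 ha).1, cop]
  split_ifs <;> ring

theorem N_mul_vr_radO {b : O} (hb : Primary b) :
    (N (radO b) : ℝ) * vr (radO b) = V2.hfac b := by
  have h1 : V2.PP (radO b) := ⟨radO_primary hb.ne_zero, radO_sqf hb.ne_zero⟩
  have hN : (0 : ℝ) < N (radO b) := by exact_mod_cast N_pos h1.1.ne_zero
  rw [V2.vr_eq _ h1, ← mul_assoc, mul_inv_cancel₀ hN.ne', one_mul, V2.hfac, V2.hfac,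
    pdv_radO hb.ne_zero]

/-- evaluation of the inner model sum -/
theorem Yb_inner_bound {θ : ℝ} (H : Cut U a0 b0) (h1 : 1 / 2 < θ) (h2 : θ ≤ 1)
    {A : ℝ} (hA : 0 < A) {b : O} (hb : Primary b) :
    ‖∑ a ∈ SPB (2 * A), al U A a * ((((N a : ℝ) ^ (-(1 / 6) : ℝ) : ℝ) : ℂ) * cop a b) -
      ((kap * V2.hfac b * A ^ (5 / 6 : ℝ) : ℝ) : ℂ) * mellin U (5 / 6)‖ ≤
      M1 θ * (HB.D (radO b)).card * CU U (-(1 / 6)) θ * A ^ (θ - 1 / 6) := by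
  rw [Yb_inner H hb, ← N_mul_vr_radO hb]
  have := H.le
  exact model_coprime H.nice h1 h2 hA (by nlinarith) (radO_primary hb.ne_zero)
    (radO_sqf hb.ne_zero)

/-- `X_b - λ Y_b`, where `λ = z/(kap cStar)` -/
theorem norm_Xb_sub_le {θ : ℝ} (H : Cut U a0 b0) (h1 : 1 / 2 < θ) (h2 : θ ≤ 1) (hk : kap ≠ 0)
    (z : ℂ) {A : ℝ} (hA : 0 < A) {b : O} (hb : Primary b) :
    ‖Xb (al U A) A b - z / (kap * cStar) * Yb (al U A) A b‖ ≤
      ‖V2.TB U 0 b A - V2.MB U 0 z b A‖ +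
        ‖z‖ / |kap| * (M1 θ * (HB.D (radO b)).card * CU U (-(1 / 6)) θ * A ^ (θ - 1 / 6)) := by
  have hc : (cStar : ℂ) ≠ 0 := by exact_mod_cast cStar_pos.ne'
  have hk' : (kap : ℂ) ≠ 0 := by exact_mod_cast hk
  set S : ℂ := ∑ a ∈ SPB (2 * A), al U A a * ((((N a : ℝ) ^ (-(1 / 6) : ℝ) : ℝ) : ℂ) * cop a b)
    with hS
  have e1 : Xb (al U A) A b - z / (kap * cStar) * Yb (al U A) A b =
      (V2.TB U 0 b A - V2.MB U 0 z b A) - z / kap * Th b *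
        (S - ((kap * V2.hfac b * A ^ (5 / 6 : ℝ) : ℝ) : ℂ) * mellin U (5 / 6)) := by
    rw [Xb_eq H hA, Yb, ← hS, V2.MB_zero U z b hA]
    push_cast
    field_simp
    ring
  rw [e1]
  refine (norm_sub_le _ _).trans (add_le_add le_rfl ?_)
  rw [norm_mul, norm_mul, norm_div, Complex.norm_real, Real.norm_eq_abs]
  have h3 := Yb_inner_bound H h1 h2 hA hb
  rw [← hS] at h3
  have h4 := DISP.norm_Th_le_one b hb.ne_zero
  calc ‖z‖ / |kap| * ‖Th b‖ * ‖S - ((kap * V2.hfac b * A ^ (5 / 6 : ℝ) : ℝ) : ℂ) *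
        mellin U (5 / 6)‖ ≤ ‖z‖ / |kap| * 1 *
        (M1 θ * (HB.D (radO b)).card * CU U (-(1 / 6)) θ * A ^ (θ - 1 / 6)) := by gcongr
    _ = _ := by ring

end Vale.Agent.P006.CMX
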