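import Vale.Agent.P006.CMX.Model
import Vale.Agent.P006.DISP.Stmt

/-!
P006, block CM3: the only input about the non-cube terms.
-/

namespace Vale.Agent.P006.CMX

open Vale.Agent.P006 Filter Topology

/-- for fixed smooth coefficients and `B = A^(3/2)` the non-cube functional is `o(A^(8/3))` -/
def NCsm : Prop :=
  ∀ (U : ℝ → ℂ) (a0 b0 : ℝ), Cut U a0 b0 →
    Tendsto (fun A : ℝ => DISP.NCf (al U A) A (A ^ (3 / 2 : ℝ)) / A ^ (8 / 3 : ℝ)) atTop (𝓝 0)

end Vale.Agent.P006.CMX
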