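import Vale.Agent.P006.CMX.Model

/-!
P006, block CM3: mean square of `X_b - λ Y_b`.
-/

namespace Vale.Agent.P006.CMX

open scoped BigOperators Classical
open Vale.Agent.P006 Finset MeasureTheory
open Vale.Agent.P006.KER (Nice)
open Vale.Agent.P006.TI (SM SC mem_SM mem_SC kap CU M1 vr)
open Vale.Agent.P006.DISP (Th Xb Yb wt Bump Vx)
open Vale.Agent.P006.V1 (ch cop)
open Vale.Agent.P006.CM (radO radO_primary radO_sqf pdv_radO isCoprime_radO card_D_radO_le radO_dvd)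

variable {U : ℝ → ℂ} {a0 b0 : ℝ}

theorem N_radO_le {b : O} (hb : b ≠ 0) : (N (radO b) : ℝ) ≤ N b := by
  have := radO_dvd hb
  exact_mod_cast Nat.le_of_dvd (N_pos hb) (N_dvd_N this)

theorem L2diff {θ : O → ℂ} (h : V2.FCHyp θ) (hθ : V2.Rho3 θ) (H : Cut U a0 b0) (hk : kap ≠ 0)
    {η : ℝ} (hη : 0 < η) (hη1 : η ≤ 2 / 3) :
    ∃ C : ℝ, 0 ≤ C ∧ ∀ A B : ℝ, 1 ≤ A → 1 ≤ B → ∀ V : ℝ → ℝ, (∀ u, 0 ≤ V u) → (∀ u, V u ≤ 1) →
      ∑ b ∈ PB (4 * B), wt V B 1 b *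
        ‖Xb (al U A) A b - θ 1 / (kap * cStar) * Yb (al U A) A b‖ ^ 2 ≤ C * (A * B) ^ (1 + η) := by
  obtain ⟨C1, hC1, h1⟩ := V2.TB_meanSq h hθ H.nice hη hη1
  obtain ⟨C2, hC2, h2⟩ := HB.card_D_le (show 0 < η / 2 by positivity)
  set K : ℝ := ‖θ 1‖ / |kap| * (M1 (2 / 3) * C2 * CU U (-(1 / 6)) (2 / 3)) with hK
  have hM := TI.M1_nonneg (2 / 3)
  have hCU := TI.CU_nonneg U (-(1 / 6)) (2 / 3)
  have hK0 : 0 ≤ K := by rw [hK]; positivity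
  refine ⟨2 * (C1 * 16) + 2 * (16 * (K ^ 2 * 4)), by positivity, ?_⟩
  intro A B hA hB V hV0 hV1
  have hA0 : 0 < A := by linarith
  have hB0 : 0 < B := by linarith
  have h4B : 1 ≤ 4 * B := by linarith
  have h3 := h1 (4 * B) A 0 h4B hA0 (PB (4 * B)) (fun _ => A)
    (fun m hm => (mem_PB.1 hm)) (fun m _ => ⟨le_rfl, by linarith⟩)
  rw [abs_zero, add_zero, Real.one_rpow, mul_one] at h3
  have hw : ∀ b, 0 ≤ wt V B 1 b ∧ wt V B 1 b ≤ 1 := by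
    intro b
    rw [wt]
    split_ifs
    · exact ⟨hV0 _, hV1 _⟩
    · exact ⟨le_rfl, zero_le_one⟩
  have h5 : ∀ b ∈ PB (4 * B), wt V B 1 b *
      ‖Xb (al U A) A b - θ 1 / (kap * cStar) * Yb (al U A) A b‖ ^ 2 ≤
      2 * ‖V2.TB U 0 b A - V2.MB U 0 (θ 1) b A‖ ^ 2 + 2 * (K ^ 2 * (4 * B) ^ η * A) := by
    intro b hb
    rw [mem_PB] at hb
    have h6 := norm_Xb_sub_le (θ := 2 / 3) H (by norm_num) (by norm_num) hk (θ 1) hA0 hb.1
    have h7 : ((HB.D (radO b)).card : ℝ) ≤ C2 * (4 * B) ^ (η / 2) := by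
      refine (h2 _ (radO_primary hb.1.ne_zero) (radO_sqf hb.1.ne_zero)).trans ?_
      have h8 : (N (radO b) : ℝ) ≤ 4 * B := (N_radO_le hb.1.ne_zero).trans hb.2
      gcongr
    have h9 : ‖θ 1‖ / |kap| * (M1 (2 / 3) * (HB.D (radO b)).card * CU U (-(1 / 6)) (2 / 3) *
        A ^ ((2 : ℝ) / 3 - 1 / 6)) ≤ K * (4 * B) ^ (η / 2) * A ^ (1 / 2 : ℝ) := by
      rw [show (2 : ℝ) / 3 - 1 / 6 = 1 / 2 by norm_num]
      calc _ ≤ ‖θ 1‖ / |kap| * (M1 (2 / 3) * (C2 * (4 * B) ^ (η / 2)) *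
            CU U (-(1 / 6)) (2 / 3) * A ^ (1 / 2 : ℝ)) := by gcongr
        _ = _ := by rw [hK]; ring
    have h10 := h6.trans (add_le_add le_rfl h9)
    set x := ‖V2.TB U 0 b A - V2.MB U 0 (θ 1) b A‖
    set y := K * (4 * B) ^ (η / 2) * A ^ (1 / 2 : ℝ) with hy
    have hy2 : y ^ 2 = K ^ 2 * (4 * B) ^ η * A := by
      rw [hy, mul_pow, mul_pow, ← Real.rpow_natCast ((4 * B) ^ (η / 2)), ← Real.rpow_mul (by positivity),
        ← Real.rpow_natCast (A ^ (1 / 2 : ℝ)), ← Real.rpow_mul hA0.le]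
      norm_num
    rw [← hy2]
    have h11 : ‖Xb (al U A) A b - θ 1 / (kap * cStar) * Yb (al U A) A b‖ ^ 2 ≤ (x + y) ^ 2 :=
      pow_le_pow_left₀ (norm_nonneg _) h10 2
    have h12 : wt V B 1 b * ‖Xb (al U A) A b - θ 1 / (kap * cStar) * Yb (al U A) A b‖ ^ 2 ≤
        1 * (x + y) ^ 2 :=
      mul_le_mul (hw b).2 h11 (by positivity) zero_le_one
    nlinarith [sq_nonneg (x - y)]
  refine (sum_le_sum h5).trans ?_
  rw [sum_add_distrib, ← mul_sum, sum_const, nsmul_eq_mul]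
  have hcard : ((PB (4 * B)).card : ℝ) ≤ 16 * B := by
    have := card_PB_le (X := 4 * B) (by linarith)
    linarith
  have h4e : (4 * B) ^ (1 + η) ≤ 16 * B ^ (1 + η) := by
    rw [Real.mul_rpow (by norm_num) hB0.le]
    have : (4 : ℝ) ^ (1 + η) ≤ 4 ^ (2 : ℝ) :=
      Real.rpow_le_rpow_of_exponent_le (by norm_num) (by linarith)
    have h16 : (4 : ℝ) ^ (2 : ℝ) = 16 := by norm_num
    rw [h16] at this
    gcongr
  have h4f : (4 * B) ^ η ≤ 4 * B ^ η := by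
    rw [Real.mul_rpow (by norm_num) hB0.le]
    have : (4 : ℝ) ^ η ≤ 4 ^ (1 : ℝ) :=
      Real.rpow_le_rpow_of_exponent_le (by norm_num) (by linarith)
    rw [Real.rpow_one] at this
    gcongr
  have hAB : (A * B) ^ (1 + η) = A ^ (1 + η) * B ^ (1 + η) := Real.mul_rpow hA0.le hB0.le
  have hA1 : A ≤ A ^ (1 + η) := by
    calc A = A ^ (1 : ℝ) := (Real.rpow_one A).symm
      _ ≤ _ := Real.rpow_le_rpow_of_exponent_le hA (by linarith)
  have hB1 : B * B ^ η = B ^ (1 + η) := by rw [Real.rpow_add hB0, Real.rpow_one]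
  calc 2 * ∑ b ∈ PB (4 * B), ‖V2.TB U 0 b A - V2.MB U 0 (θ 1) b A‖ ^ 2 +
        ((PB (4 * B)).card : ℝ) * (2 * (K ^ 2 * (4 * B) ^ η * A))
      ≤ 2 * (C1 * (16 * B ^ (1 + η)) * A ^ (1 + η)) +
        (16 * B) * (2 * (K ^ 2 * (4 * B ^ η) * A ^ (1 + η))) := by
        gcongr
        refine h3.trans ?_
        gcongr
    _ = (2 * (C1 * 16) + 2 * (16 * (K ^ 2 * 4))) * (A ^ (1 + η) * B ^ (1 + η)) := by
        rw [← hB1]; ring
    _ = _ := by rw [hAB]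

end Vale.Agent.P006.CMX
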