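import Vale.Agent.P006.CMX.L2
import Vale.Agent.P006.TI.Zeta2

/-!
P006, block CM3: lower bound for the model sum `∑_b w_b |Y_b|²`.
-/

namespace Vale.Agent.P006.CMX

open scoped BigOperators Classical
open Vale.Agent.P006 Finset MeasureTheory Filter Topology
open Vale.Agent.P006.KER (Nice)
open Vale.Agent.P006.TI (SM SC mem_SM mem_SC kap CU M1 vr SQ mem_SQ)
open Vale.Agent.P006.DISP (Th Xb Yb wt Bump Vx)
open Vale.Agent.P006.V1 (ch cop)
open Vale.Agent.P006.V2 (hfac)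

theorem inv_hfac_le : ∀ b, V2.PP b → (hfac b)⁻¹ ≤ ∑ d ∈ dvs b, (N d : ℝ)⁻¹ := by
  apply V2.PP.induction
  · rw [V2.hfac_one, inv_one]
    have : (1 : O) ∈ dvs 1 := (mem_dvs one_ne_zero).2 ⟨primary_one, dvd_refl _⟩
    refine le_trans ?_ (single_le_sum (f := fun d => (N d : ℝ)⁻¹) (fun d _ => by positivity) this)
    simp
  · intro r p hr hp hpr ih
    have hN := V2.Np_pos hp
    rw [V2.hfac_mul_prime hp hpr, mul_inv, inv_inv]
    have hr0 := hr.ne_zero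
    have hrp : r * p ≠ 0 := mul_ne_zero hr0 hp.ne_zero
    have h1 : (dvs r) ∪ (dvs r).image (fun d => d * p) ⊆ dvs (r * p) := by
      intro d hd
      rw [mem_union, mem_image] at hd
      rw [mem_dvs hrp]
      rcases hd with hd | ⟨e, he, rfl⟩
      · rw [mem_dvs hr0] at hd
        exact ⟨hd.1, hd.2.mul_right p⟩
      · rw [mem_dvs hr0] at he
        exact ⟨he.1.mul hp.1, mul_dvd_mul_right he.2 p⟩
    have h2 : Disjoint (dvs r) ((dvs r).image (fun d => d * p)) := by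
      rw [disjoint_left]
      intro d hd hd2
      rw [mem_image] at hd2
      obtain ⟨e, he, rfl⟩ := hd2
      rw [mem_dvs hr0] at hd
      exact hpr ((dvd_mul_left p e).trans hd.2)
    have h3 : ∑ d ∈ (dvs r) ∪ (dvs r).image (fun d => d * p), (N d : ℝ)⁻¹ ≤
        ∑ d ∈ dvs (r * p), (N d : ℝ)⁻¹ :=
      sum_le_sum_of_subset_of_nonneg h1 fun d _ _ => by positivity
    refine le_trans ?_ h3
    rw [sum_union h2, sum_image (fun x _ y _ hxy => mul_right_cancel₀ hp.ne_zero hxy)]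
    have h4 : ∑ d ∈ dvs r, (N (d * p) : ℝ)⁻¹ = (∑ d ∈ dvs r, (N d : ℝ)⁻¹) * (1 / (N p : ℝ)) := by
      rw [sum_mul]
      refine sum_congr rfl fun d _ => ?_
      rw [N_mul, Nat.cast_mul, mul_inv, one_div]
    rw [h4, mul_add, mul_one]
    have : 0 ≤ 1 / (N p : ℝ) := by positivity
    nlinarith

/-- average of `1/hfac` -/
theorem sum_inv_hfac_le {X : ℝ} (hX : 1 ≤ X) :
    ∑ b ∈ SPB X, (hfac b)⁻¹ ≤ 4 * V2.zsum 2 * X := by
  have h1 : ∑ b ∈ SPB X, (hfac b)⁻¹ ≤ ∑ b ∈ PB X, ∑ d ∈ dvs b, (N d : ℝ)⁻¹ := by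
    refine le_trans (sum_le_sum fun b hb => inv_hfac_le b (DISP.mem_SPB_iff.1 hb).1) ?_
    apply sum_le_sum_of_subset_of_nonneg
    · intro b hb
      rw [DISP.mem_SPB_iff] at hb
      exact mem_PB.2 ⟨hb.1.1, hb.2⟩
    · intro b _ _
      exact sum_nonneg fun d _ => by positivity
  refine h1.trans ?_
  rw [sum_dvs_PB X (fun d _ => (N d : ℝ)⁻¹)]
  have h2 : ∀ a ∈ PB X, ∑ b ∈ PB (X / N a), (N a : ℝ)⁻¹ ≤ 4 * X * (N a : ℝ) ^ (-(2 : ℝ)) := by
    intro a ha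
    rw [mem_PB] at ha
    have hN : (0 : ℝ) < N a := by exact_mod_cast N_pos ha.1.ne_zero
    rw [sum_const, nsmul_eq_mul]
    have := card_PB_le (X := X / N a) (by positivity)
    calc ((PB (X / N a)).card : ℝ) * (N a : ℝ)⁻¹ ≤ 4 * (X / N a) * (N a : ℝ)⁻¹ := by gcongr
      _ = 4 * X * (N a : ℝ) ^ (-(2 : ℝ)) := by
        rw [Real.rpow_neg hN.le, Real.rpow_two]; field_simp
  refine (sum_le_sum h2).trans ?_
  rw [← mul_sum]
  have h3 : ∑ a ∈ PB X, (N a : ℝ) ^ (-(2 : ℝ)) ≤ V2.zsum 2 :=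
    (V2.summable_N (by norm_num)).sum_le_tsum _ fun a _ => by positivity
  nlinarith [V2.zsum_nonneg 2]

/-- squarefree primary elements in a dyadic interval -/
noncomputable def DY (B : ℝ) : Finset O := (SPB (2 * B)).filter (fun b => B < (N b : ℝ))

theorem mem_DY {B : ℝ} {b : O} : b ∈ DY B ↔ InP b ∧ B < (N b : ℝ) ∧ (N b : ℝ) ≤ 2 * B := by
  rw [DY, mem_filter, DISP.mem_SPB_iff]; tauto

theorem card_DY_ge : ∀ᶠ B : ℝ in atTop, kap / 2 * B ≤ ((DY B).card : ℝ) := by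
  set M : ℝ := 16 * TI.ZS (2 * (3 / 4)) with hM
  have hk := TI.kap_pos
  have hlim : ∀ᶠ B : ℝ in atTop, 3 * M ≤ kap / 2 * B ^ (1 / 4 : ℝ) := by
    have : Tendsto (fun B : ℝ => kap / 2 * B ^ (1 / 4 : ℝ)) atTop atTop :=
      (tendsto_rpow_atTop (by norm_num)).const_mul_atTop (by positivity)
    exact this.eventually_ge_atTop _
  filter_upwards [hlim, eventually_gt_atTop 0] with B hB hB0
  have hM0 : 0 ≤ M := by rw [hM]; have := TI.ZS_nonneg (2 * (3 / 4)); positivity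
  have e1 : (DY B) = SQ (2 * B) \ SQ B := by
    ext b
    rw [mem_DY, Finset.mem_sdiff, mem_SQ, mem_SQ, InP, not_and, not_and, not_le]
    constructor
    · rintro ⟨⟨h1, h2⟩, h3, h4⟩
      exact ⟨⟨h1, h2, h4⟩, fun _ _ => h3⟩
    · rintro ⟨⟨h1, h2, h4⟩, h3⟩
      exact ⟨⟨h1, h2⟩, h3 h1 h2, h4⟩
  have e2 : ((SQ (2 * B)).card : ℝ) ≤ (DY B).card + (SQ B).card := by
    rw [e1]
    have := card_le_card_sdiff_add_card (s := SQ (2 * B)) (t := SQ B)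
    exact_mod_cast this
  have h1 := TI.abs_card_SQ_sub_le (x := 2 * B) (θ := 3 / 4) (by positivity) (by norm_num) (by norm_num)
  have h2 := TI.abs_card_SQ_sub_le (x := B) (θ := 3 / 4) hB0 (by norm_num) (by norm_num)
  rw [← hM, abs_le] at h1 h2
  have h3 : (2 * B) ^ (3 / 4 : ℝ) ≤ 2 * B ^ (3 / 4 : ℝ) := by
    rw [Real.mul_rpow (by norm_num) hB0.le]
    have : (2 : ℝ) ^ (3 / 4 : ℝ) ≤ 2 ^ (1 : ℝ) :=
      Real.rpow_le_rpow_of_exponent_le (by norm_num) (by norm_num)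
    rw [Real.rpow_one] at this
    gcongr
  have h4 : 3 * M * B ^ (3 / 4 : ℝ) ≤ kap / 2 * B := by
    have h5 : B = B ^ (1 / 4 : ℝ) * B ^ (3 / 4 : ℝ) := by
      rw [← Real.rpow_add hB0]; norm_num
    calc 3 * M * B ^ (3 / 4 : ℝ) ≤ kap / 2 * B ^ (1 / 4 : ℝ) * B ^ (3 / 4 : ℝ) := by gcongr
      _ = kap / 2 * B := by rw [mul_assoc, ← h5]
  have h6 : M * (2 * B) ^ (3 / 4 : ℝ) ≤ M * (2 * B ^ (3 / 4 : ℝ)) := by gcongr
  nlinarith [h1.1, h2.2]

/-- lower bound for the average of `hfac²` -/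
theorem sum_hfac_sq_ge : ∃ c : ℝ, 0 < c ∧ ∀ᶠ B : ℝ in atTop, c * B ≤ ∑ b ∈ DY B, hfac b ^ 2 := by
  have hk := TI.kap_pos
  set Z : ℝ := 8 * V2.zsum 2 + 1 with hZ
  have hz := V2.zsum_nonneg 2
  have hZ0 : 0 < Z := by rw [hZ]; linarith
  -- tangent line with parameter `t`
  set t : ℝ := kap / 2 / Z with ht
  have ht0 : 0 < t := by rw [ht]; positivity
  refine ⟨t ^ 2 * (kap / 2), by positivity, ?_⟩
  filter_upwards [card_DY_ge, eventually_ge_atTop 1] with B hB hB1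
  have hB0 : 0 < B := by linarith
  have h1 : ∀ b ∈ DY B, 3 * t ^ 2 - 2 * t ^ 3 * (hfac b)⁻¹ ≤ hfac b ^ 2 := by
    intro b _
    have hh := V2.hfac_pos b
    set x := hfac b with hx
    have h2 : 0 ≤ (x - t) ^ 2 * (x + 2 * t) * x⁻¹ := by positivity
    have h3 : (x - t) ^ 2 * (x + 2 * t) * x⁻¹ = x ^ 2 - 3 * t ^ 2 + 2 * t ^ 3 * x⁻¹ := by
      field_simp
      ring
    linarith
  have h2 : ∑ b ∈ DY B, (hfac b)⁻¹ ≤ Z * B := by
    refine le_trans (sum_le_sum_of_subset_of_nonneg (filter_subset _ _)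
      fun b _ _ => inv_nonneg.2 (V2.hfac_pos b).le) ?_
    refine (sum_inv_hfac_le (X := 2 * B) (by linarith)).trans ?_
    rw [hZ]; nlinarith
  have h3 : ∑ b ∈ DY B, (3 * t ^ 2 - 2 * t ^ 3 * (hfac b)⁻¹) ≤ ∑ b ∈ DY B, hfac b ^ 2 :=
    sum_le_sum h1
  rw [sum_sub_distrib, ← mul_sum (f := fun b => (hfac b)⁻¹), sum_const, nsmul_eq_mul] at h3
  refine le_trans ?_ h3
  have h4 : 2 * t ^ 3 * ∑ b ∈ DY B, (hfac b)⁻¹ ≤ 2 * t ^ 3 * (Z * B) := by gcongr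
  have h5 : t * Z = kap / 2 := by rw [ht]; field_simp
  have h6 : 2 * t ^ 3 * (Z * B) = 2 * t ^ 2 * (kap / 2) * B := by rw [← h5]; ring
  have h7 : 3 * t ^ 2 * (kap / 2 * B) ≤ ((DY B).card : ℝ) * (3 * t ^ 2) := by
    have : 0 ≤ 3 * t ^ 2 := by positivity
    nlinarith
  nlinarith

end Vale.Agent.P006.CMX
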