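import Vale.Agent.P006.CMX.Upper
import Vale.Agent.P006.CMX.NCsmDef

/-!
P006, block CM3: lower bound for `V3s`.
-/

namespace Vale.Agent.P006.CMX

open scoped BigOperators Classical
open Vale.Agent.P006 Finset MeasureTheory Filter Topology
open Vale.Agent.P006.KER (Nice)
open Vale.Agent.P006.TI (kap CU M1)
open Vale.Agent.P006.DISP
open Vale.Agent.P006.V1 (ch cop)
open Vale.Agent.P006.V2 (hfac)
open Vale.Agent.P006.CM (radO radO_primary radO_sqf)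

variable {U : ℝ → ℂ} {a0 b0 : ℝ}

theorem norm_Th_sq_ge {b : O} (hb : InP b) {B : ℝ} (h : (N b : ℝ) ≤ 2 * B) :
    (2 * B) ^ (-(1 / 3) : ℝ) ≤ ‖Th b‖ ^ 2 := by
  have hN : (0 : ℝ) < N b := by exact_mod_cast N_pos hb.ne_zero
  have h1 : ‖Th b‖ = (N b : ℝ) ^ (-(1 / 6) : ℝ) := by
    rw [Th_inP hb, norm_mul, RCLike.norm_conj, norm_gt_one hb, one_mul, Complex.norm_real,
      Real.norm_of_nonneg (by positivity)]
  rw [h1, ← Real.rpow_natCast, ← Real.rpow_mul hN.le]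
  have h2 : (-(1 / 6) : ℝ) * ((2 : ℕ) : ℝ) = -(1 / 3) := by norm_num
  rw [h2]
  exact Real.rpow_le_rpow_of_nonpos hN h (by norm_num)

/-- `|z|² ≥ |w|²/2 - |z-w|²` -/
theorem norm_sq_ge (z w : ℂ) : ‖w‖ ^ 2 / 2 - ‖z - w‖ ^ 2 ≤ ‖z‖ ^ 2 := by
  have h1 : ‖w‖ ≤ ‖z‖ + ‖z - w‖ := by
    calc ‖w‖ = ‖z - (z - w)‖ := by rw [sub_sub_cancel]
      _ ≤ _ := norm_sub_le _ _
  have h2 : ‖w‖ ^ 2 ≤ (‖z‖ + ‖z - w‖) ^ 2 := pow_le_pow_left₀ (norm_nonneg _) h1 2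
  nlinarith [sq_nonneg (‖z‖ - ‖z - w‖)]

theorem wt_one_DY {V0 : ℝ → ℝ} (hV0 : Bump V0) {B : ℝ} (hB : 0 < B) {b : O} (hb : b ∈ DY B) :
    wt (Vx V0 1 1) B 1 b = 1 := by
  rw [mem_DY] at hb
  rw [wt, if_pos isCoprime_one_right]
  apply Vx_one hV0 one_pos
  · rw [le_div_iff₀ hB]; linarith [hb.2.1]
  · rw [div_le_iff₀ hB]; linarith [hb.2.2]

theorem V3s_ge (H : Cut U a0 b0) {V0 : ℝ → ℝ} (hV0 : Bump V0) {η : ℝ} (hη : 0 < η) (hη1 : η ≤ 1) :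
    ∃ K : ℝ, 0 ≤ K ∧ ∀ A B : ℝ, 1 ≤ A → 1 ≤ B →
      cStar ^ 2 * (2 * B) ^ (-(1 / 3) : ℝ) *
        (kap ^ 2 * ‖mellin U (5 / 6)‖ ^ 2 * A ^ (5 / 3 : ℝ) / 2 * (∑ b ∈ DY B, hfac b ^ 2) -
          K * (A * B ^ (1 + η))) ≤ V3s (Vx V0 1 1) B 1 (al U A) A := by
  obtain ⟨C2, hC2, h2⟩ := HB.card_D_le (show 0 < η / 2 by positivity)
  set K0 : ℝ := M1 (2 / 3) * C2 * CU U (-(1 / 6)) (2 / 3) with hK0
  have hM := TI.M1_nonneg (2 / 3)
  have hCU := TI.CU_nonneg U (-(1 / 6)) (2 / 3)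
  have hK00 : 0 ≤ K0 := by rw [hK0]; positivity
  refine ⟨8 * (4 * K0 ^ 2), by positivity, ?_⟩
  intro A B hA hB
  have hA0 : 0 < A := by linarith
  have hB0 : 0 < B := by linarith
  have hc := cStar_pos
  set m : ℝ := ‖mellin U (5 / 6)‖ with hm
  set t : ℝ := (2 * B) ^ (-(1 / 3) : ℝ) with ht
  have ht0 : 0 ≤ t := by positivity
  -- each term
  have h3 : ∀ b ∈ DY B, cStar ^ 2 * t * (kap ^ 2 * m ^ 2 * A ^ (5 / 3 : ℝ) / 2 * hfac b ^ 2 -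
      4 * K0 ^ 2 * (A * B ^ η)) ≤ wt (Vx V0 1 1) B 1 b * ‖Yb (al U A) A b‖ ^ 2 := by
    intro b hb
    rw [wt_one_DY hV0 hB0 hb, one_mul]
    rw [mem_DY] at hb
    obtain ⟨hP, hb1, hb2⟩ := hb
    have h4 := Yb_inner_bound (θ := 2 / 3) H (by norm_num) (by norm_num) hA0 hP.1
    have h5 : ((HB.D (radO b)).card : ℝ) ≤ C2 * (4 * B) ^ (η / 2) := by
      refine (h2 _ (radO_primary hP.ne_zero) (radO_sqf hP.ne_zero)).trans ?_
      have h8 : (N (radO b) : ℝ) ≤ 4 * B := (N_radO_le hP.ne_zero).trans (by linarith)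
      gcongr
    have h6 : M1 (2 / 3) * (HB.D (radO b)).card * CU U (-(1 / 6)) (2 / 3) *
        A ^ ((2 : ℝ) / 3 - 1 / 6) ≤ K0 * (4 * B) ^ (η / 2) * A ^ (1 / 2 : ℝ) := by
      rw [show (2 : ℝ) / 3 - 1 / 6 = 1 / 2 by norm_num]
      calc _ ≤ M1 (2 / 3) * (C2 * (4 * B) ^ (η / 2)) *
            CU U (-(1 / 6)) (2 / 3) * A ^ (1 / 2 : ℝ) := by gcongr
        _ = _ := by rw [hK0]; ring
    have h7 := h4.trans h6
    set S : ℂ := ∑ a ∈ SPB (2 * A), al U A a * ((((N a : ℝ) ^ (-(1 / 6) : ℝ) : ℝ) : ℂ) * cop a b)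
      with hS
    set w : ℂ := ((kap * hfac b * A ^ (5 / 6 : ℝ) : ℝ) : ℂ) * mellin U (5 / 6) with hw
    have h8 := norm_sq_ge S w
    have h9 : ‖w‖ ^ 2 = kap ^ 2 * m ^ 2 * A ^ (5 / 3 : ℝ) * hfac b ^ 2 := by
      rw [hw, norm_mul, Complex.norm_real, Real.norm_of_nonneg
        (mul_nonneg (mul_nonneg TI.kap_pos.le (V2.hfac_pos b).le) (by positivity)), ← hm]
      have : (A ^ (5 / 6 : ℝ)) ^ 2 = A ^ (5 / 3 : ℝ) := by
        rw [← Real.rpow_natCast, ← Real.rpow_mul hA0.le]; norm_num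
      calc (kap * hfac b * A ^ (5 / 6 : ℝ) * m) ^ 2 = kap ^ 2 * m ^ 2 * (A ^ (5 / 6 : ℝ)) ^ 2 *
            hfac b ^ 2 := by ring
        _ = _ := by rw [this]
    have h10 : ‖S - w‖ ^ 2 ≤ 4 * K0 ^ 2 * (A * B ^ η) := by
      calc ‖S - w‖ ^ 2 ≤ (K0 * (4 * B) ^ (η / 2) * A ^ (1 / 2 : ℝ)) ^ 2 :=
            pow_le_pow_left₀ (norm_nonneg _) h7 2
        _ = K0 ^ 2 * (4 * B) ^ η * A := by
            rw [mul_pow, mul_pow, ← Real.rpow_natCast ((4 * B) ^ (η / 2)),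
              ← Real.rpow_mul (by positivity), ← Real.rpow_natCast (A ^ (1 / 2 : ℝ)),
              ← Real.rpow_mul hA0.le]
            norm_num
        _ ≤ K0 ^ 2 * (4 * B ^ η) * A := by
            have h4f : (4 * B) ^ η ≤ 4 * B ^ η := by
              rw [Real.mul_rpow (by norm_num) hB0.le]
              have : (4 : ℝ) ^ η ≤ 4 ^ (1 : ℝ) :=
                Real.rpow_le_rpow_of_exponent_le (by norm_num) (by linarith)
              rw [Real.rpow_one] at this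
              gcongr
            gcongr
        _ = _ := by ring
    have h11 : kap ^ 2 * m ^ 2 * A ^ (5 / 3 : ℝ) / 2 * hfac b ^ 2 - 4 * K0 ^ 2 * (A * B ^ η) ≤
        ‖S‖ ^ 2 := by
      rw [h9] at h8
      linarith
    have h12 : ‖Yb (al U A) A b‖ ^ 2 = cStar ^ 2 * ‖Th b‖ ^ 2 * ‖S‖ ^ 2 := by
      rw [Yb, ← hS, norm_mul, norm_mul, Complex.norm_real, Real.norm_of_nonneg hc.le]; ring
    rw [h12]
    have h13 := norm_Th_sq_ge hP hb2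
    rw [← ht] at h13
    calc cStar ^ 2 * t * (kap ^ 2 * m ^ 2 * A ^ (5 / 3 : ℝ) / 2 * hfac b ^ 2 -
          4 * K0 ^ 2 * (A * B ^ η)) ≤ cStar ^ 2 * t * ‖S‖ ^ 2 := by gcongr
      _ ≤ cStar ^ 2 * ‖Th b‖ ^ 2 * ‖S‖ ^ 2 := by gcongr
  have h4 : ∑ b ∈ DY B, wt (Vx V0 1 1) B 1 b * ‖Yb (al U A) A b‖ ^ 2 ≤
      V3s (Vx V0 1 1) B 1 (al U A) A := by
    unfold V3s
    apply sum_le_sum_of_subset_of_nonneg
    · intro b hb
      rw [mem_DY] at hb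
      rw [mem_PB]
      exact ⟨hb.1.1, by linarith [hb.2.2]⟩
    · intro b _ _
      exact mul_nonneg (wt_nonneg (Vx_nonneg hV0 _ _) _ _ _) (by positivity)
  refine le_trans ?_ ((sum_le_sum h3).trans h4)
  rw [← mul_sum, sum_sub_distrib, ← mul_sum, sum_const, nsmul_eq_mul]
  have h5 : ((DY B).card : ℝ) ≤ 8 * B := by
    have h6 : ((DY B).card : ℝ) ≤ ((SPB (2 * B)).card : ℝ) := by
      exact_mod_cast card_le_card (filter_subset _ _)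
    exact h6.trans (card_SPB2_le hB)
  have h6 : B ^ (1 + η) = B * B ^ η := by rw [Real.rpow_add hB0, Real.rpow_one]
  apply mul_le_mul_of_nonneg_left _ (by positivity)
  apply sub_le_sub_left
  rw [h6]
  calc ((DY B).card : ℝ) * (4 * K0 ^ 2 * (A * B ^ η)) ≤ 8 * B * (4 * K0 ^ 2 * (A * B ^ η)) := by
        gcongr
    _ = _ := by ring

end Vale.Agent.P006.CMX
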