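import Vale.Agent.P006.CMX.Lower
import Vale.Agent.P006.DISP.Disp
import Vale.Agent.P006.V1C.Conv
import Vale.Agent.P006.DN.EM

/-!
P006, block CM3: the difference of the two dispersion sums `V1s - V3s` for smooth coefficients.
-/

namespace Vale.Agent.P006.CMX

open scoped BigOperators Classical
open Vale.Agent.P006 Finset MeasureTheory Filter Topology
open Vale.Agent.P006.KER (Nice)
open Vale.Agent.P006.TI (SM SC mem_SM mem_SC kap CU M1 vr SQ mem_SQ)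
open Vale.Agent.P006.DISP
open Vale.Agent.P006.V1 (ch cop)
open Vale.Agent.P006.V2 (hfac)

variable {U : ℝ → ℂ} {a0 b0 : ℝ}

theorem adm_al (H : Cut U a0 b0) {A : ℝ} (hA : 0 < A) : Adm 1 A (al U A) where
  supp := by
    intro a ha
    have hP : InP a := by
      by_contra h; exact ha (if_neg h)
    rw [al_of hP] at ha
    refine ⟨hP, isCoprime_one_right, ?_, ?_⟩
    · by_contra h
      apply ha
      apply H.nice.eq_zero_of_le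
      have h1 := H.lt
      have h2 : (N a : ℝ) / A ≤ 1 := (div_le_one hA).2 (not_lt.1 h)
      linarith
    · by_contra h
      apply ha
      apply H.nice.eq_zero_of_ge
      have h1 := H.le
      have h2 : 2 < (N a : ℝ) / A := by rw [lt_div_iff₀ hA]; exact not_le.1 h
      linarith

theorem norm_al_le {S : ℝ} (hS0 : 0 ≤ S) (hS : ∀ x, ‖U x‖ ≤ S) (A : ℝ) (a : O) :
    ‖al U A a‖ ≤ S := by
  rw [al]
  split_ifs
  · exact hS _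
  · rw [norm_zero]; exact hS0

theorem tau_le_of {δ Ct : ℝ} (hδ : 0 < δ) (hCt : 1 ≤ Ct)
    (hτ : ∀ c : O, Primary c → (tau c : ℝ) ≤ Ct * (N c : ℝ) ^ δ) {A : ℝ} {a : O}
    (ha : a ∈ SPB (2 * A)) : (tau a : ℝ) ≤ Ct * (2 * A) ^ δ := by
  rw [mem_SPB_iff] at ha
  refine (hτ a ha.1.1).trans ?_
  have := ha.2
  gcongr

/-- `N(gcd) ≤ ∑_{d ∣ a1, d ∣ a2} N d` -/
theorem N_gcd_le {a1 a2 : O} (h1 : Primary a1) (h2 : Primary a2) :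
    (N (EuclideanDomain.gcd a1 a2) : ℝ) ≤ ∑ d ∈ dvs a1 ∩ dvs a2, (N d : ℝ) := by
  rw [← V1C.N_gd h1 h2]
  obtain ⟨r1, r2, hd, h1', h2', e1, e2, hc⟩ := V1.gd_spec h1 h2
  have : V1.gd a1 a2 ∈ dvs a1 ∩ dvs a2 := by
    rw [mem_inter, mem_dvs h1.ne_zero, mem_dvs h2.ne_zero]
    exact ⟨⟨hd, ⟨r1, e1⟩⟩, ⟨hd, ⟨r2, e2⟩⟩⟩
  exact single_le_sum (f := fun d => (N d : ℝ)) (fun d _ => by positivity) this

theorem emk_sum_le {ε : ℝ} (hε : 0 < ε) : ∃ C : ℝ, 0 ≤ C ∧ ∀ A : ℝ, 1 ≤ A →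
    ∑ a1 ∈ SPB (2 * A), ∑ a2 ∈ SPB (2 * A), emk a1 a2 ≤ C * A ^ (1 + ε) := by
  obtain ⟨Ct, hCt, hτ⟩ := exists_tau_le (show 0 < ε / 4 by positivity)
  refine ⟨Ct ^ 2 * (2 : ℝ) ^ (ε / 2) * (512 * (2 + 2 / ε)), by positivity, fun A hA => ?_⟩
  have hA0 : 0 < A := by linarith
  have h2A : 1 ≤ 2 * A := by linarith
  set T : ℝ := Ct * (2 * A) ^ (ε / 4) with hT
  have hT0 : 0 ≤ T := by positivity
  have h1 : ∀ a1 ∈ SPB (2 * A), ∀ a2 ∈ SPB (2 * A), emk a1 a2 ≤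
      T ^ 2 * ((∑ d ∈ dvs a1 ∩ dvs a2, (N d : ℝ)) / Real.sqrt (N a1 * N a2)) := by
    intro a1 ha1 a2 ha2
    have t1 := tau_le_of (by positivity) hCt hτ ha1
    have t2 := tau_le_of (by positivity) hCt hτ ha2
    rw [← hT] at t1 t2
    have p1 := (mem_SPB_iff.1 ha1).1
    have p2 := (mem_SPB_iff.1 ha2).1
    have g := N_gcd_le p1.1 p2.1
    have hs : (0 : ℝ) ≤ ∑ d ∈ dvs a1 ∩ dvs a2, (N d : ℝ) := sum_nonneg fun _ _ => by positivity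
    rw [emk]
    calc (N (EuclideanDomain.gcd a1 a2) : ℝ) / Real.sqrt (N a1 * N a2) * (tau a1 * tau a2)
        ≤ (∑ d ∈ dvs a1 ∩ dvs a2, (N d : ℝ)) / Real.sqrt (N a1 * N a2) * (T * T) := by gcongr
      _ = _ := by ring
  have h2 : ∑ a1 ∈ SPB (2 * A), ∑ a2 ∈ SPB (2 * A), emk a1 a2 ≤
      T ^ 2 * ∑ a1 ∈ PB (2 * A), ∑ a2 ∈ PB (2 * A),
        (∑ d ∈ dvs a1 ∩ dvs a2, (N d : ℝ)) / Real.sqrt (N a1 * N a2) := by
    have hnn : ∀ a a' : O, 0 ≤ (∑ d ∈ dvs a ∩ dvs a', (N d : ℝ)) / Real.sqrt (N a * N a') :=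
      fun a a' => div_nonneg (sum_nonneg fun _ _ => by positivity) (Real.sqrt_nonneg _)
    have hsub : SPB (2 * A) ⊆ PB (2 * A) := filter_subset _ _
    calc _ ≤ ∑ a1 ∈ SPB (2 * A), ∑ a2 ∈ SPB (2 * A),
          T ^ 2 * ((∑ d ∈ dvs a1 ∩ dvs a2, (N d : ℝ)) / Real.sqrt (N a1 * N a2)) :=
          sum_le_sum fun a1 ha1 => sum_le_sum fun a2 ha2 => h1 a1 ha1 a2 ha2
      _ ≤ ∑ a1 ∈ SPB (2 * A), ∑ a2 ∈ PB (2 * A),
          T ^ 2 * ((∑ d ∈ dvs a1 ∩ dvs a2, (N d : ℝ)) / Real.sqrt (N a1 * N a2)) :=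
          sum_le_sum fun a1 _ => sum_le_sum_of_subset_of_nonneg hsub
            fun a2 _ _ => mul_nonneg (by positivity) (hnn _ _)
      _ ≤ ∑ a1 ∈ PB (2 * A), ∑ a2 ∈ PB (2 * A),
          T ^ 2 * ((∑ d ∈ dvs a1 ∩ dvs a2, (N d : ℝ)) / Real.sqrt (N a1 * N a2)) :=
          sum_le_sum_of_subset_of_nonneg hsub
            fun a1 _ _ => sum_nonneg fun a2 _ => mul_nonneg (by positivity) (hnn _ _)
      _ = _ := by simp_rw [← mul_sum]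
  have h3 := DN.sum_gcd_le h2A
  have hlog : Real.log (2 * A) ≤ (1 + 2 / ε) * A ^ (ε / 2) := by
    rw [Real.log_mul (by norm_num) hA0.ne']
    have l2 : Real.log 2 ≤ 1 := by have := Real.log_two_lt_d9; linarith
    have l3 : Real.log A ≤ A ^ (ε / 2) / (ε / 2) := Real.log_le_rpow_div hA0.le (by positivity)
    have l4 : 1 ≤ A ^ (ε / 2) := Real.one_le_rpow hA (by positivity)
    have l5 : A ^ (ε / 2) / (ε / 2) = 2 / ε * A ^ (ε / 2) := by field_simp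
    rw [l5] at l3
    nlinarith
  have hA1 : 1 ≤ A ^ (ε / 2) := Real.one_le_rpow hA (by positivity)
  have hT2 : T ^ 2 = Ct ^ 2 * (2 : ℝ) ^ (ε / 2) * A ^ (ε / 2) := by
    rw [hT, mul_pow, ← Real.rpow_natCast ((2 * A) ^ (ε / 4)), ← Real.rpow_mul (by positivity),
      Real.mul_rpow (by norm_num) hA0.le]
    push_cast
    rw [show ε / 4 * 2 = ε / 2 by ring]; ring
  have hAA : A ^ (1 + ε) = A * (A ^ (ε / 2) * A ^ (ε / 2)) := by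
    rw [← Real.rpow_add hA0, Real.rpow_add hA0, Real.rpow_one]
    congr 2; ring
  calc _ ≤ T ^ 2 * (256 * (2 * A) * (1 + Real.log (2 * A))) :=
        h2.trans (mul_le_mul_of_nonneg_left h3 (by positivity))
    _ ≤ T ^ 2 * (256 * (2 * A) * ((2 + 2 / ε) * A ^ (ε / 2))) := by
        gcongr
        nlinarith
    _ = _ := by rw [hT2, hAA]; ring

theorem dens_one : dens 1 = 1 := by rw [dens, pdv_one, prod_empty]

theorem card_SPB2_le {A : ℝ} (hA : 1 ≤ A) : ((SPB (2 * A)).card : ℝ) ≤ 8 * A := by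
  have := card_SPB_le (X := 2 * A) (by linarith); linarith

/-- the diagonal -/
theorem diag_bound {S : ℝ} (hS0 : 0 ≤ S) (hS : ∀ x, ‖U x‖ ≤ S) {ε : ℝ} (hε : 0 < ε) (I1 : ℝ)
    {A B : ℝ} (hA : 1 ≤ A) (hB : 1 ≤ B) :
    |kapP * 1 * B * I1 * ∑ a ∈ SPB (2 * A), ‖al U A a‖ ^ 2 * dens a| ≤
      kapP * |I1| * (S ^ 2 * 8) * (A ^ (1 + ε) * B) := by
  have hn : ∀ a, ‖al U A a‖ ≤ S := norm_al_le hS0 hS A
  have hA0 : 0 < A := by linarith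
  have hB0 : 0 < B := by linarith
  have hkP := kapP_nonneg
  have hcard := card_SPB2_le hA
  have d1 : ∑ a ∈ SPB (2 * A), ‖al U A a‖ ^ 2 * dens a ≤ S ^ 2 * (8 * A) := by
    calc _ ≤ ∑ a ∈ SPB (2 * A), S ^ 2 * 1 := by
          refine sum_le_sum fun a _ => ?_
          have := hn a
          exact mul_le_mul (pow_le_pow_left₀ (norm_nonneg _) this 2) (dens_le_one a)
            (dens_nonneg a) (by positivity)
      _ = S ^ 2 * (SPB (2 * A)).card := by rw [sum_const, nsmul_eq_mul]; ring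
      _ ≤ _ := by gcongr
  have d1' : 0 ≤ ∑ a ∈ SPB (2 * A), ‖al U A a‖ ^ 2 * dens a :=
    sum_nonneg fun a _ => mul_nonneg (by positivity) (dens_nonneg a)
  have hAe : A ≤ A ^ (1 + ε) := by
    calc A = A ^ (1 : ℝ) := (Real.rpow_one A).symm
      _ ≤ _ := Real.rpow_le_rpow_of_exponent_le hA (by linarith)
  rw [abs_mul, abs_mul, abs_of_nonneg d1', abs_of_nonneg (show 0 ≤ kapP * 1 * B by positivity)]
  calc kapP * 1 * B * |I1| * ∑ a ∈ SPB (2 * A), ‖al U A a‖ ^ 2 * dens a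
      ≤ kapP * 1 * B * |I1| * (S ^ 2 * (8 * A ^ (1 + ε))) := by
        gcongr
        exact d1.trans (by gcongr)
    _ = _ := by ring

theorem gcd_pt {S T A B : ℝ} (hS0 : 0 ≤ S) (hS : ∀ x, ‖U x‖ ≤ S) (hA : 1 ≤ A) (hB : 1 ≤ B)
    {a1 a2 : O} (t2 : (tau a1 : ℝ) ≤ T) :
    (if a1 = a2 then ‖al U A a1‖ ^ 2 * (tau a1 : ℝ) ^ 2 * (A * B) ^ (-(1 / 3) : ℝ)
        else ‖al U A a1‖ * ‖al U A a2‖ * emk a1 a2) ≤
      (if a1 = a2 then S ^ 2 * T ^ 2 else 0) + S ^ 2 * emk a1 a2 := by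
  have hn : ∀ a, ‖al U A a‖ ≤ S := norm_al_le hS0 hS A
  have hAB : (A * B) ^ (-(1 / 3) : ℝ) ≤ 1 :=
    Real.rpow_le_one_of_one_le_of_nonpos (one_le_mul_of_one_le_of_one_le hA hB) (by norm_num)
  have hem : 0 ≤ emk a1 a2 := by unfold emk; positivity
  have n1 := hn a1
  have n2 := hn a2
  have hT : 0 ≤ T := (Nat.cast_nonneg _).trans t2
  split_ifs with h
  · have : ‖al U A a1‖ ^ 2 * (tau a1 : ℝ) ^ 2 * (A * B) ^ (-(1 / 3) : ℝ) ≤ S ^ 2 * T ^ 2 * 1 := by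
      gcongr
    have h0 : 0 ≤ S ^ 2 * emk a1 a2 := by positivity
    linarith
  · rw [zero_add, sq]
    gcongr

/-- the gcd terms -/
theorem gcd_bound {S C1 Ct Ce ε : ℝ} (hS0 : 0 ≤ S) (hS : ∀ x, ‖U x‖ ≤ S) (hε : 0 < ε)
    (hC1 : 0 ≤ C1) (hCt : 1 ≤ Ct)
    (hτ : ∀ c : O, Primary c → (tau c : ℝ) ≤ Ct * (N c : ℝ) ^ (ε / 2)) {A B : ℝ} (hA : 1 ≤ A)
    (hB : 1 ≤ B) (he : ∑ a1 ∈ SPB (2 * A), ∑ a2 ∈ SPB (2 * A), emk a1 a2 ≤ Ce * A ^ (1 + ε)) :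
    C1 * 1 * B * (∑ a1 ∈ SPB (2 * A), ∑ a2 ∈ SPB (2 * A),
      if a1 = a2 then ‖al U A a1‖ ^ 2 * (tau a1 : ℝ) ^ 2 * (A * B) ^ (-(1 / 3) : ℝ)
      else ‖al U A a1‖ * ‖al U A a2‖ * emk a1 a2) ≤
      C1 * (S ^ 2 * (8 * (Ct ^ 2 * (2 : ℝ) ^ ε) + Ce)) * (A ^ (1 + ε) * B) := by
  have hA0 : 0 < A := by linarith
  have hB0 : 0 < B := by linarith
  have hcard := card_SPB2_le hA
  set T : ℝ := Ct * (2 * A) ^ (ε / 2) with hT
  have t1 : ∑ a1 ∈ SPB (2 * A), ∑ a2 ∈ SPB (2 * A),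
      (if a1 = a2 then ‖al U A a1‖ ^ 2 * (tau a1 : ℝ) ^ 2 * (A * B) ^ (-(1 / 3) : ℝ)
      else ‖al U A a1‖ * ‖al U A a2‖ * emk a1 a2) ≤
      ∑ a1 ∈ SPB (2 * A), ∑ a2 ∈ SPB (2 * A),
        ((if a1 = a2 then S ^ 2 * T ^ 2 else 0) + S ^ 2 * emk a1 a2) :=
    sum_le_sum fun a1 ha1 => sum_le_sum fun a2 _ =>
      gcd_pt hS0 hS hA hB (tau_le_of (by positivity) hCt hτ ha1)
  have t2 : ∑ a1 ∈ SPB (2 * A), ∑ a2 ∈ SPB (2 * A),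
        ((if a1 = a2 then S ^ 2 * T ^ 2 else 0) + S ^ 2 * emk a1 a2) =
      (SPB (2 * A)).card * (S ^ 2 * T ^ 2) +
        S ^ 2 * ∑ a1 ∈ SPB (2 * A), ∑ a2 ∈ SPB (2 * A), emk a1 a2 := by
    simp_rw [sum_add_distrib, ← mul_sum]
    congr 1
    rw [← nsmul_eq_mul, ← sum_const]
    refine sum_congr rfl fun a ha => ?_
    rw [sum_ite_eq, if_pos ha]
  have t3 : T ^ 2 = Ct ^ 2 * (2 : ℝ) ^ ε * A ^ ε := by
    rw [hT, mul_pow, ← Real.rpow_natCast ((2 * A) ^ (ε / 2)), ← Real.rpow_mul (by positivity),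
      Real.mul_rpow (by norm_num) hA0.le]
    push_cast
    rw [show ε / 2 * 2 = ε by ring]; ring
  have t4 : A ^ (1 + ε) = A * A ^ ε := by rw [Real.rpow_add hA0, Real.rpow_one]
  have t5 : ((SPB (2 * A)).card : ℝ) * (S ^ 2 * (Ct ^ 2 * (2 : ℝ) ^ ε * A ^ ε)) ≤
      8 * A * (S ^ 2 * (Ct ^ 2 * (2 : ℝ) ^ ε * A ^ ε)) :=
    mul_le_mul_of_nonneg_right hcard (by positivity)
  have t6 := mul_le_mul_of_nonneg_left he (show 0 ≤ S ^ 2 by positivity)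
  have t7 : C1 * 1 * B * (∑ a1 ∈ SPB (2 * A), ∑ a2 ∈ SPB (2 * A),
      if a1 = a2 then ‖al U A a1‖ ^ 2 * (tau a1 : ℝ) ^ 2 * (A * B) ^ (-(1 / 3) : ℝ)
      else ‖al U A a1‖ * ‖al U A a2‖ * emk a1 a2) ≤
      C1 * 1 * B * ((8 * A) * (S ^ 2 * (Ct ^ 2 * (2 : ℝ) ^ ε * A ^ ε)) +
        S ^ 2 * (Ce * A ^ (1 + ε))) := by
    refine mul_le_mul_of_nonneg_left (t1.trans ?_) (by positivity)
    rw [t2, t3]
    exact add_le_add t5 t6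
  refine t7.trans (le_of_eq ?_)
  rw [t4]; ring

theorem v3_pt (H : Cut U a0 b0) {S Ct C3 ε A B : ℝ} (hS0 : 0 ≤ S) (hS : ∀ x, ‖U x‖ ≤ S)
    (hε : 0 < ε) (hCt : 1 ≤ Ct) (hC3 : 0 ≤ C3)
    (hτ : ∀ c : O, Primary c → (tau c : ℝ) ≤ Ct * (N c : ℝ) ^ (ε / 2)) (hA : 1 ≤ A) (hB : 1 ≤ B)
    {a1 a2 : O} (ha1 : a1 ∈ SPB (2 * A)) (ha2 : a2 ∈ SPB (2 * A)) :
    ‖al U A a1‖ * ‖al U A a2‖ *
        (n6 a1 * n6 a2 * (C3 * B ^ (1 / 3 : ℝ) * (tau (1 * (a1 * a2)) : ℝ))) ≤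
      S * S * (A ^ (-(1 / 6) : ℝ) * A ^ (-(1 / 6) : ℝ) * (C3 * B ^ (1 / 3 : ℝ) *
        (Ct * ((4 : ℝ) ^ (ε / 2) * A ^ ε)))) := by
  have hA0 : 0 < A := by linarith
  have hB0 : 0 < B := by linarith
  have hn : ∀ a, ‖al U A a‖ ≤ S := norm_al_le hS0 hS A
  have hα := adm_al H hA0
  by_cases z1 : al U A a1 = 0
  · rw [z1, norm_zero, zero_mul, zero_mul]; positivity
  by_cases z2 : al U A a2 = 0
  · rw [z2, norm_zero, mul_zero, zero_mul]; positivity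
  have m1 := n6_le hA0 (hα.supp a1 z1).2.2.1
  have m2 := n6_le hA0 (hα.supp a2 z2).2.2.1
  have p1 := mem_SPB_iff.1 ha1
  have p2 := mem_SPB_iff.1 ha2
  have t2 : (tau (1 * (a1 * a2)) : ℝ) ≤ Ct * ((4 : ℝ) ^ (ε / 2) * A ^ ε) := by
    rw [one_mul]
    refine (hτ _ (p1.1.1.mul p2.1.1)).trans ?_
    have t3 : (N (a1 * a2) : ℝ) ≤ 4 * (A * A) := by
      rw [N_mul]; push_cast
      calc (N a1 : ℝ) * N a2 ≤ (2 * A) * (2 * A) := by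
            have := p1.2; have := p2.2; gcongr
        _ = _ := by ring
    calc Ct * (N (a1 * a2) : ℝ) ^ (ε / 2) ≤ Ct * (4 * (A * A)) ^ (ε / 2) := by gcongr
      _ = Ct * ((4 : ℝ) ^ (ε / 2) * A ^ ε) := by
        rw [Real.mul_rpow (by norm_num) (by positivity), sq_rpow_half hA0]
  have n1 := hn a1
  have n2 := hn a2
  have q1 := n6_nonneg a1
  have q2 := n6_nonneg a2
  gcongr

/-- the error of the third sum -/
theorem v3_bound (H : Cut U a0 b0) {S Ct C3 ε A B : ℝ} (hS0 : 0 ≤ S) (hS : ∀ x, ‖U x‖ ≤ S)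
    (hε : 0 < ε) (hCt : 1 ≤ Ct) (hC3 : 0 ≤ C3)
    (hτ : ∀ c : O, Primary c → (tau c : ℝ) ≤ Ct * (N c : ℝ) ^ (ε / 2)) (hA : 1 ≤ A) (hB : 1 ≤ B) :
    ∑ a1 ∈ SPB (2 * A), ∑ a2 ∈ SPB (2 * A), ‖al U A a1‖ * ‖al U A a2‖ *
        (n6 a1 * n6 a2 * (C3 * B ^ (1 / 3 : ℝ) * (tau (1 * (a1 * a2)) : ℝ))) ≤
      S ^ 2 * (64 * (C3 * (Ct * (4 : ℝ) ^ (ε / 2)))) * (A ^ (5 / 3 + ε) * B ^ (1 / 3 : ℝ)) := by
  have hA0 : 0 < A := by linarith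
  have hB0 : 0 < B := by linarith
  have hcard := card_SPB2_le hA
  set Q : ℝ := S * S * (A ^ (-(1 / 6) : ℝ) * A ^ (-(1 / 6) : ℝ) * (C3 * B ^ (1 / 3 : ℝ) *
          (Ct * ((4 : ℝ) ^ (ε / 2) * A ^ ε)))) with hQ
  have hQ0 : 0 ≤ Q := by rw [hQ]; positivity
  have t5 : A ^ (5 / 3 + ε) = A * A * (A ^ (-(1 / 6) : ℝ) * A ^ (-(1 / 6) : ℝ)) * A ^ ε := by
    rw [← Real.rpow_add hA0, ← sq, ← Real.rpow_natCast A 2, ← Real.rpow_add hA0,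
      ← Real.rpow_add hA0]
    norm_num
  calc _ ≤ ∑ a1 ∈ SPB (2 * A), ∑ a2 ∈ SPB (2 * A), Q :=
        sum_le_sum fun a1 ha1 => sum_le_sum fun a2 ha2 =>
          v3_pt H hS0 hS hε hCt hC3 hτ hA hB ha1 ha2
    _ = (SPB (2 * A)).card * ((SPB (2 * A)).card * Q) := by
        simp_rw [sum_const, nsmul_eq_mul]
    _ ≤ (8 * A) * ((8 * A) * Q) := by gcongr
    _ = _ := by rw [hQ, t5]; ring

/-- the two dispersion sums agree up to small errors -/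
theorem V1_sub_V3 (hV1 : V1Hyp) (hV3 : V3Hyp) {V0 : ℝ → ℝ} (hV0 : Bump V0) (H : Cut U a0 b0)
    {ε : ℝ} (hε : 0 < ε) : ∃ C : ℝ, 0 ≤ C ∧ ∀ A B : ℝ, 1 ≤ A → 1 ≤ B →
      |V1s (Vx V0 1 1) B 1 (al U A) A - V3s (Vx V0 1 1) B 1 (al U A) A| ≤
        C * (A ^ (1 + ε) * B + A ^ (5 / 3 + ε) * B ^ (1 / 3 : ℝ) + NCf (al U A) A B) := by
  obtain ⟨S, hS0, hS⟩ := TI.exists_norm_le H.nice
  obtain ⟨C1, hC1, h1⟩ := hV1 V0 hV0
  obtain ⟨C2, c2, hC2, hc2, h2⟩ := h1 1 inP_one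
  obtain ⟨C3, c3, hC3, hc3, h3⟩ := hV3 V0 hV0
  obtain ⟨Ce, hCe, he⟩ := emk_sum_le hε
  obtain ⟨Ct, hCt, hτ⟩ := exists_tau_le (show 0 < ε / 2 by positivity)
  set I1 : ℝ := ∫ u : ℝ, Vx V0 1 1 u with hI1
  set K1 : ℝ := kapP * |I1| * (S ^ 2 * 8) with hK1
  set K2 : ℝ := C1 * (S ^ 2 * (8 * (Ct ^ 2 * (2 : ℝ) ^ ε) + Ce)) with hK2
  set K3 : ℝ := S ^ 2 * (64 * (C3 * (Ct * (4 : ℝ) ^ (ε / 2)))) with hK3
  have hkP := kapP_nonneg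
  have k1 : 0 ≤ K1 := by positivity
  have k2 : 0 ≤ K2 := by positivity
  have k3 : 0 ≤ K3 := by positivity
  refine ⟨K1 + K2 + K3 + C2, by positivity, ?_⟩
  intro A B hA hB
  have hA0 : 0 < A := by linarith
  have hB0 : 0 < B := by linarith
  have hα := adm_al H hA0
  have hNC := NCf_nonneg (α := al U A) hA0 hB0
  have e1 := h2 1 1 A B one_pos le_rfl le_rfl one_le_two hA hB (al U A) hα
  have e3 := V3s_bound (V := Vx V0 1 1) (B := B) (E := C3 * B ^ (1 / 3 : ℝ))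
    (I := IVr (Vx V0 1 1)) inP_one (fun D hD => by
      refine (h3 1 1 B one_pos le_rfl le_rfl one_le_two hB D hD).trans (le_of_eq ?_)
      rw [Real.one_rpow]; ring) hα
  rw [Real.one_rpow, Real.one_rpow] at e1
  rw [dens_one] at e1 e3
  have D1 := diag_bound hS0 hS hε I1 hA hB
  have D2 := gcd_bound hS0 hS hε hC1 hCt hτ hA hB (he A hA)
  have D3 := v3_bound H hS0 hS hε hCt hC3 hτ hA hB
  rw [← hK1] at D1
  rw [← hK2] at D2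
  rw [← hK3] at D3
  generalize (∑ a1 ∈ SPB (2 * A), ∑ a2 ∈ SPB (2 * A),
      if a1 = a2 then ‖al U A a1‖ ^ 2 * (tau a1 : ℝ) ^ 2 * (A * B) ^ (-(1 / 3) : ℝ)
      else ‖al U A a1‖ * ‖al U A a2‖ * emk a1 a2) = E2 at e1 D2
  generalize (∑ a1 ∈ SPB (2 * A), ∑ a2 ∈ SPB (2 * A), ‖al U A a1‖ * ‖al U A a2‖ *
        (n6 a1 * n6 a2 * (C3 * B ^ (1 / 3 : ℝ) * (tau (1 * (a1 * a2)) : ℝ)))) = E3 at e3 D3
  generalize kapP * 1 * B * I1 * ∑ a ∈ SPB (2 * A), ‖al U A a‖ ^ 2 * dens a = E1 at e1 D1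
  generalize kap0 * IVr (Vx V0 1 1) * 1 * B ^ (2 / 3 : ℝ) * Qform (al U A) A = M0 at e1 e3
  generalize V1s (Vx V0 1 1) B 1 (al U A) A = v1 at e1 ⊢
  generalize V3s (Vx V0 1 1) B 1 (al U A) A = v3 at e3 ⊢
  generalize NCf (al U A) A B = nc at e1 hNC ⊢
  have hx : 0 ≤ A ^ (1 + ε) * B := by positivity
  have hy : 0 ≤ A ^ (5 / 3 + ε) * B ^ (1 / 3 : ℝ) := by positivity
  generalize A ^ (1 + ε) * B = x at hx D1 D2 ⊢
  generalize A ^ (5 / 3 + ε) * B ^ (1 / 3 : ℝ) = y at hy D3 ⊢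
  have goal1 : K1 * x + K2 * x + K3 * y + C2 * 1 * nc ≤ (K1 + K2 + K3 + C2) * (x + y + nc) := by
    nlinarith [mul_nonneg k1 hy, mul_nonneg k1 hNC, mul_nonneg k2 hy, mul_nonneg k2 hNC,
      mul_nonneg k3 hx, mul_nonneg k3 hNC, mul_nonneg hC2 hx, mul_nonneg hC2 hy]
  refine le_trans ?_ goal1
  have e1' := abs_le.1 e1
  have e3' := abs_le.1 e3
  have D1' := abs_le.1 D1
  rw [abs_le]
  constructor
  · linarith [e1'.1, e1'.2, e3'.1, e3'.2, D1'.1, D1'.2, D2, D3]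
  · linarith [e1'.1, e1'.2, e3'.1, e3'.2, D1'.1, D1'.2, D2, D3]

end Vale.Agent.P006.CMX
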